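import Vale.Agent.P092MA.Fam

/-!
P092 (helper19): opposite pairs and the relation between two members of a family.
-/

set_option linter.all false

open Set

namespace Vale.Agent.P092MA

open Vale.Agent.P092RD

/-- an open set of pairs with a continuous invariant -/
structure Opp {Z X : Type} [TopologicalSpace Z] [TopologicalSpace X] (Op : Set (Z × Z))
    (d : Z × Z → X) : Prop where
  opn : IsOpen Op
  cont : ContinuousOn d Op

/-- **REL**: the joint spectrum of two opposite members lies on a level set -/
def Rel {Z Y X K : Type} [TopologicalSpace Y] [MeasurableSpace Y] [NormedAddCommGroup K]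
    [InnerProductSpace ℂ K] (θ : Z → POM Y K) (Op : Set (Z × Z)) (d : Z × Z → X)
    (Op' : Set (Y × Y)) (d' : Y × Y → X) : Prop :=
  ∀ z w, (z, w) ∈ Op → ∀ P S, IsCompact P → IsCompact S → P ×ˢ S ⊆ Op' →
    d (z, w) ∉ d' '' (P ×ˢ S) → (θ z).P P * (θ w).P S = 0

end Vale.Agent.P092MA
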