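import Vale.Agent.P092MA.Magic
import Vale.Agent.P092HR.Defs
import Vale.Agent.P092GB.Main
import Vale.Agent.P092RH.Com
import Vale.Agent.P092MG.Cel

/-!
P092 (helper19): the magic pair on the full cone of a totally disconnected group.
-/

set_option linter.all false

open scoped InnerProductSpace ENNReal NNReal Pointwise Vale.Agent.P092HR
open MeasureTheory Filter Topology ContinuousLinearMap Set

namespace Vale.Agent.P092MA

open Vale.Agent.P092CP Vale.Agent.P092RD Vale.Agent.P092GK Vale.Agent.P092GB Vale.Agent.P092HR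
open Vale.Agent.P092MG (RI OP cj Mag)
open Vale.Agent.P092RH (cell mem_cell prop_opp up_pom tr_ne)
open Vale.Agent.P092.RC (Cm)

variable {k : Type} [NontriviallyNormedField k] [ProperSpace k] {G K : Type} [Group G]
  [TopologicalSpace G] [IsTopologicalGroup G] [LocallyCompactSpace G] [SecondCountableTopology G]
  [T2Space G] [MeasurableSpace G] [BorelSpace G] [NormedAddCommGroup K] [InnerProductSpace ℂ K]
  [CompleteSpace K] {μ : Measure G} [μ.IsHaarMeasure] {W : Set (K →L[ℂ] K)} {r : ℕ}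
  {F : FlD k G r} {C : Cpl μ μ W} {H : Subgroup G} {A B : Set G}

/-- the image in the coset space -/
def im (H : Subgroup G) (A : Set G) : Set (G ⧸ H) := (fun g : G => (g : G ⧸ H)) '' A

theorem mem_im (hA : RI H A) (g : G) : (g : G ⧸ H) ∈ im H A ↔ g ∈ A :=
  ⟨fun ⟨x, hx, e⟩ => by simpa using hA.2 x hx _ (QuotientGroup.eq.1 e), fun h => ⟨g, h, rfl⟩⟩

theorem im_eq {S : Set (G ⧸ H)} (e : ∀ g : G, (g : G ⧸ H) ∈ S ↔ g ∈ A) : im H A = S :=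
  Set.ext fun y => ⟨fun ⟨x, hx, a⟩ => a ▸ (e x).2 hx,
    QuotientGroup.induction_on y fun g hg => ⟨g, (e g).1 hg, rfl⟩⟩

theorem open_im (hA : RI H A) : IsOpen (im H A) := QuotientGroup.isOpenMap_coe A hA.1

theorem meas_im (hA : RI H A) : MeasurableSet (im H A) := (open_im hA).measurableSet

theorem op_im {θ : POM (G ⧸ H) K} (hθ : θ.IsP) : OP H fun A => θ.P (im H A) where
  sa A hA := θ.star_P (meas_im hA)
  inter A B hA hB := by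
    rw [← hθ.P_inter (meas_im hA) (meas_im hB)]
    exact congrArg _ (im_eq fun g => by rw [mem_inter_iff, mem_im hA, mem_im hB]; rfl)
  union A B hA hB := by
    have a := meas_im hA
    have b := meas_im hB
    rw [show im H (A ∪ B) = im H A ∪ im H B from image_union _ _ _, ← union_diff_self,
      θ.P_union a (b.diff a) disjoint_sdiff_right, ← hθ.P_inter a b, diff_eq, inter_comm (im H A),
      eq_sub_iff_add_eq, add_assoc, add_comm (θ.P (_ ∩ _ᶜ)), ← P_split θ a b]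
  univ := (congrArg _ (im_eq fun _ => Iff.rfl)).trans hθ.P_univ
  empty := (congrArg _ (im_eq fun _ => Iff.rfl)).trans θ.P_empty
  lim A hA hm ξ := by
    rw [show im H (⋃ n, A n) = ⋃ n, im H (A n) from image_iUnion]
    exact θ.tendsto_P_iUnion (fun n => meas_im (hA n)) (fun a b c => image_mono (hm c)) ξ

variable (h : Fl F) {q : G}
include h

theorem conj_Z (hq : q ∈ F.Z) : ∀ z ∈ F.Z, (F.n₀ * q)⁻¹ * z * (F.n₀ * q)⁻¹⁻¹ ∈ F.Z := fun z hz => by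
  have := F.Z.mul_mem (F.Z.mul_mem (F.Z.inv_mem hq) ((h.n₀Z (F.n₀⁻¹ * z * F.n₀)).2
    (by simpa [mul_assoc] using hz))) hq
  simpa [mul_assoc] using this

theorem ri_lev (td : TD G) (v : Aa r) : RI (NN F) {g | g ∈ F.Ω ∧ F.ℓ g = v} := by
  refine ⟨isOpen_iff_mem_nhds.2 fun g hg => ?_, fun x hx p hp =>
    ⟨(h.Ω_mul_P (FlD.N_le_P _ hp)).2 hx.1, (h.ℓ_N hp x).trans hx.2⟩⟩
  have hz := F.Z.inv_mem (h.md_mem hg.1)
  refine mem_of_superset ((((mn_m h td).cell.open_cK (opM h td)).preimage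
    (continuous_mul_const (F.md g)⁻¹)).mem_nhds ⟨_, h.lo_mem g hg.1, 1, one_mem _, _,
      h.zup _ (h.md_mem hg.1) _ (h.up_mem g hg.1), by simp [FlD.md, mul_assoc]⟩) ?_
  rintro x ⟨u, hu, m, hm, w, hw, (e : x * (F.md g)⁻¹ = _)⟩
  have h1 : x * (F.md g)⁻¹ ∈ F.Ω := e ▸ h.cell_mem hu hm.1 hw
  have h2 := (h.Ω_mul_P (h.z_mem_P hz _)).1 h1
  have h3 := h.ℓ_zr hz h2
  rw [e, h.ℓ_up hw, h.ℓ_um hu, (h.mem_M.1 hm).2,
    h.ℓ_inv (h.md_mem hg.1), h.ℓ_md hg.1, hg.2] at h3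
  exact ⟨h2, add_neg_eq_zero.1 h3.symm⟩

theorem cl_eq : (Dm F).cl (Dm F).M = {g | g ∈ F.Ω ∧ F.ℓ g = 0} := Set.ext fun g =>
  ⟨fun ⟨u, hu, m, hm, w, hw, e⟩ => e ▸ ⟨h.cell_mem hu hm.1 hw, by
    rw [h.ℓ_up hw, h.ℓ_um hu, (h.mem_M.1 hm).2]⟩, fun hg => ⟨_, h.lo_mem g hg.1, _,
      h.mem_M.2 ⟨h.md_mem hg.1, (h.ℓ_md hg.1).trans hg.2⟩, _, h.up_mem g hg.1,
        (F.lo_md_up g).symm⟩⟩

/-- the set function of a member of a family -/
theorem sd_of {ϑ : ZZ F → POM (ZZ F) K} (fam : Fam C ϑ) (hP : ∀ z, (ϑ z).IsP)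
    (sh : ∀ a ∈ F.Z, ∃ b ∈ F.Z, ∀ z S, MeasurableSet S →
      (ϑ (rt _ a z)).P S = (ϑ z).P (rt _ b ⁻¹' S)) (hq : q ∈ F.Z) :
    P092MG.Sd C (Dm F) (Dm F) fun A => (ϑ (F.n₀ * q : G)).P (im (NN F) A) := by
  haveI := h.Ht_cl h.Ht_N
  have nr := fun a (ha : a ∈ F.Z) => h.Ht_nrm h.Ht_N (h.z_mem_P ha _)
  have mv : ∀ s A, RI (NN F) A → cj C.s.π s ((ϑ (F.n₀ * q : G)).P (im (NN F) A)) =
      (ϑ (F.n₀ * q * ((F.n₀ * q)⁻¹ * s * (F.n₀ * q)⁻¹⁻¹) : G)).P (im (NN F) A) := fun s A hA => by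
    rw [cj, ← fam.P_mov (meas_im hA), mk_smul, inv_inv, mul_assoc _ s, mul_inv_cancel_left]
  refine ⟨op_im (hP _), fun A hA => fam.cm_P (meas_im hA) _, fun g A hA => ?_, fun m hm A hA => ?_,
    fun u hu A hA => ?_, fun a ha => ?_, ?_⟩
  · exact ((fam.cov _).P g (meas_im hA)).trans (congrArg _ (im_eq fun x => mem_im hA (g⁻¹ * x)).symm)
  · rw [mv m A hA, QuotientGroup.mk_mul_of_mem _ (h.M_le_N _ (h.M_conj (conj_Z h hq) hm))]
  · have := h.zup _ (F.Z.inv_mem hq) _ ((h.n₀up (F.n₀⁻¹ * u * F.n₀)).2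
      (by simpa [mul_assoc] using show u ∈ F.Um from hu))
    rw [mv u A hA, QuotientGroup.mk_mul_of_mem _ (h.up_mem_N (by simpa [mul_assoc] using this) _)]
  · obtain ⟨b, hb, e⟩ := sh _ (conj_Z h hq a ha)
    refine ⟨b, hb, fun A hA => ?_⟩
    rw [mv a A hA, ← rt_mk (nr _ (conj_Z h hq a ha)), e _ _ (meas_im hA)]
    exact congrArg _ (im_eq fun x => by rw [mem_preimage, rt_mk (nr b hb)]; exact mem_im hA _).symm
  · have hΩ : RI (NN F) F.Ω := ⟨h.isOpen_Ω, fun x hx p hp => (h.Ω_mul_P (FlD.N_le_P _ hp)).2 hx⟩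
    rw [Dm_Ω h]
    refine conull (hP _) C.t (fam.cov _) (meas_im hΩ) fun ζ => ?_
    obtain ⟨y, rfl⟩ := QuotientGroup.mk_surjective ζ
    simpa only [mk_smul, mem_im hΩ, one_mul] using ae_iff.1 (h.ae_Ω_inv μ 1 y)

theorem bd_cell {η : Measure G} (hη : Hm (NN F) η) {T : Set (ZZ F)} (hT : IsCompact T)
    (hs : T ⊆ cell F _) : ∃ c, c ≠ ∞ ∧ ∀ z : ZZ F, η {g | g⁻¹ • z ∈ T} ≤ c := by
  obtain ⟨D, hD, h2⟩ := prop_opp h h.Ht_N Function.injective_id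
    ((isCompact_singleton (x := ((1 : G) : F.Y _))).prod hT) (by rintro ⟨_, _⟩ ⟨rfl, z⟩; exact hs z)
  refine ⟨_, (hη.fin _ hD.inv).ne, fun z => ?_⟩
  rw [← hη.inter]
  rcases eq_empty_or_nonempty ({g : G | g⁻¹ • z ∈ T} ∩ NN F) with h0 | ⟨g₀, h3, h4⟩
  · rw [h0, measure_empty]; exact zero_le
  have h5 : ∀ g ∈ NN F, g⁻¹ • ((1 : G) : F.Y Finset.univ) = (1 : G) := fun g hg =>
    QuotientGroup.eq.2 (by simpa using FlD.N_le_P _ hg)
  rw [← (hη.mp_left ((NN F).inv_mem h4)).measure_preimage hD.inv.measurableSet.nullMeasurableSet]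
  refine measure_mono fun g hg => ?_
  simpa using h2 _ z g⁻¹ g₀⁻¹ ⟨h5 g hg.2, hg.1⟩ ⟨h5 g₀ h4, h3⟩

variable {L : Aa r →ₗ[ℝ] Aa r} {E : POM (YY F) K} {θ₀ θ : POM (ZZ F) K}

/-- **The magic pair** -/
theorem mag_td (td : TD G) (a : Sd F C L E θ₀ (NN F) LinearMap.id θ) :
    ∃ ϑ Θ n, Mag C (Dm F) (Dm F) ϑ Θ ∧
      ∀ S, IsOpen S → ∃ A, RI (Dm F).H A ∧ ϑ A = cj C.s.π n (θ.P S) := by
  obtain ⟨ϑ, ν, ν', c, fm, nu, d5, rel⟩ := a.ma
  haveI := h.Ht_cl h.Ht_N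
  haveI := nu.fin
  obtain ⟨Θ, D⟩ := d5.exists_dual
  have le := h.Ht_N.le
  have nr := fun a (ha : a ∈ F.Z) => h.Ht_nrm h.Ht_N (h.z_mem_P ha _)
  have hι : ∀ x, (LinearMap.id ∘ₗ L) x = 0 → (LinearMap.id ∘ₗ L) (x ∘ F.ι) = 0 := fun x e =>
    (a.sp.opp x).trans (by rw [show L x = 0 from e]; rfl)
  have M : Mi C ϑ _ (fun q => F.dd _ (LinearMap.id ∘ₗ L) q + c) _ _ := ⟨⟨h.isOpen_Op le le, (h.contOn_dd a.cs.src hι).add continuousOn_const⟩,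
    ⟨h.isOpen_Op le le, h.contOn_dd a.cs.tgt a.cs.opp⟩, rel, h.ae_op μ le le, h.ae_op' μ le le⟩
  have hP := D.isP d5 M fun w w' e =>
    h.sep a.cs.src hι a.cs.pos fun z a b => add_right_cancel (e z a b)
  have sc : ∀ p ∈ F.Z, ∀ q (hq : q ∈ F.Z), F.ℓ q = L (F.ℓ p) →
      Scl ν ϑ (rt _ p) (rtH (nr q hq)) (eo (F.ρ (F.ℓ p))) := fun p hp q hq e =>
    ⟨(cont_rt (nr p hp)).measurable, (cont_rt (nr q hq)).measurable, nu.map p (h.z_mem_P hp _),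
      fun z S hS => by
        obtain ⟨g, rfl⟩ := QuotientGroup.mk_surjective z
        rw [rt_mk (nr p hp), POM.P, fm.base _ _ (bd_ind1 hS), ← C.s.conj_conj,
          a.tx.mv p (h.z_mem_P hp _) q (h.z_mem_P hq _) e _ (bd_ind1 hS)]
        exact (fm.base g _ (bd_ind1 ((cont_rt (nr q hq)).measurable hS))).symm⟩
  have key : ∀ q ∈ F.Z, ∀ v, (Θ (F.n₀ * q : G)).P (im _ {g | g ∈ F.Ω ∧ L (F.ℓ g) + c = v}) =
      (ϑ (F.n₀ * 1 : G)).P (im _ {g | g ∈ F.Ω ∧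
        F.ℓ g = (v - F.ℓ q - F.ℓ (F.n₀ * F.n₀)) ∘ F.ι}) := fun q hq v => by
    refine Eq.trans (congrArg _ (im_eq fun g => ?_)) ((D.magic_P d5 M (F.n₀ * 1 : G) (F.n₀ * q : G)
      (measurableSet_singleton v)).trans (congrArg _ (im_eq fun g => ?_).symm))
    · have e : F.n₀ * (F.n₀ * 1)⁻¹ * g = g := by group
      rw [mem_setOf_eq, h.op_mk le le, e]
      exact and_congr_right fun hg => by rw [h.dd_mk a.cs.src hι (e.symm ▸ hg), e]; rfl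
    · have e : ∀ x, F.n₀ * (F.n₀⁻¹ * x) = x := fun x => by group
      have e1 : F.n₀ * g⁻¹ * (F.n₀ * q) = F.n₀ * (F.n₀⁻¹ * g)⁻¹ * q := by group
      have e2 : F.n₀ * g⁻¹ * (F.n₀ * q) ∈ F.Ω ↔ g ∈ F.Ω := by
        rw [e1, h.Ω_mul_P (h.z_mem_P hq _)]
        exact ⟨fun b => by simpa using (h.swap_Ω b).1, fun b => (h.swap_Ω ((e g).symm ▸ b)).1⟩
      rw [mem_setOf_eq, h.op_mk le le, e2]
      refine and_congr_right fun hg => ?_
      have e3 := h.swap_Ω ((e g).symm ▸ hg)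
      rw [h.dd_mk a.cs.tgt a.cs.opp (e2.2 hg), e1, h.ℓ_zr hq e3.1, e3.2, e, mem_singleton_iff,
        LinearMap.id_apply]
      refine ⟨fun b => funext fun i => ?_, fun b => funext fun i => ?_⟩
      · simp [← b, h.ι_ι]
      · simp [b, h.ι_ι]
  have lv : ∀ p ∈ F.Z, {g | g ∈ F.Ω ∧ L (F.ℓ g) + c = L (F.ℓ p) + c} =
      {g | g ∈ F.Ω ∧ F.ℓ g = F.ℓ p} := fun p _ => by simp only [add_left_inj, a.sp.inj.eq_iff]
  have ne : ∀ {S : Set G} {ψ : POM (ZZ F) K}, ψ.P (im _ S) ≠ 0 → S.Nonempty := fun e =>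
    nonempty_iff_ne_empty.2 fun b => e (by rw [b, im, image_empty, POM.P_empty])
  obtain ⟨q, hq, hc⟩ : ∃ q ∈ F.Z, c - F.ℓ q - F.ℓ (F.n₀ * F.n₀) = 0 := by
    have e := key 1 (one_mem _) (L (F.ℓ 1) + c)
    rw [lv 1 (one_mem _)] at e
    obtain ⟨x, hx, b⟩ := ne (e ▸ (D.d5 d5 hP).P_ne (open_im (ri_lev h td _))
      ⟨_, 1, ⟨h.one_mem, rfl⟩, rfl⟩ _)
    have hz := F.Z.inv_mem (h.md_mem hx)
    refine ⟨_, (h.n₀Z _).1 hz, funext fun i => ?_⟩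
    rw [h.ℓ_n₀B (h.z_mem_P hz _), h.ℓ_inv (h.md_mem hx), h.ℓ_md hx, b]
    simp [h.ℓ_one, h.ι_ι]
  have on : ∀ b ∈ F.Z, ∃ p ∈ F.Z, F.ℓ b = L (F.ℓ p) := fun b hb => by
    have hz := F.Z.inv_mem hb
    have e := key q hq (F.ℓ b + c)
    obtain ⟨x, hx, e1⟩ := ne (e ▸ d5.P_ne (open_im (ri_lev h td _))
      ⟨_, _, ⟨h.z_mem ((h.n₀Z _).1 hz), by
        rw [h.ℓ_n₀B (h.z_mem_P hz _), h.ℓ_inv hb, add_sub_assoc, add_sub_assoc, hc, add_zero]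
        exact neg_neg _⟩, rfl⟩ _)
    exact ⟨_, h.md_mem hx, by rw [h.ℓ_md hx, add_right_cancel e1]⟩
  refine ⟨_, _, F.n₀ * 1, ⟨sd_of h fm.fam fm.isP (fun p hp => ?_) (one_mem _),
    sd_of h D.fam hP (fun b hb => ?_) hq, ?_,
    fun L' T c' s' cT sT A' A (r' : RI (NN F) A') (rA : RI (NN F) A) i' i => ?_⟩,
    fun S hS => ⟨(fun g : G => (g : ZZ F)) ⁻¹' S, ⟨hS.preimage QuotientGroup.continuous_mk,
      fun x hx p (hp : p ∈ NN F) => ?_⟩, ?_⟩⟩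
  · exact (a.sp.lat p hp).imp fun b e => ⟨e.1, (sc p hp b e.1 e.2).sh⟩
  · exact (on b hb).imp fun p e => ⟨e.1, (D.scl d5 (sc p e.1 b hb e.2) (eo_ne_top _)).sh⟩
  · have e := key q hq (L (F.ℓ 1) + c)
    rw [lv 1 (one_mem _), h.ℓ_one, map_zero, zero_add, hc] at e
    rw [cl_eq h]
    exact e.symm
  · obtain ⟨η, hη⟩ := exists_hm (h.Ht_cl h.Ht_N)
    haveI := hη.sfin
    have cI := fun L (b : IsCompact L) => b.image (QuotientGroup.continuous_mk (N := NN F))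
    have sI : ∀ {A L : Set G}, (∀ x ∈ A, ∃ c ∈ L, c⁻¹ * x ∈ NN F) → im _ A ⊆ im (NN F) L := by
      rintro A L b _ ⟨x, hx, rfl⟩
      exact (b x hx).imp fun c e => ⟨e.1, QuotientGroup.eq.2 e.2⟩
    have cT' := (cI T cT).image (continuous_const_smul (F.n₀ * 1)⁻¹)
    obtain ⟨c₀, h0, fin⟩ := a.fin η hη _ (cI L' c')
    obtain ⟨c₁, h1, bd⟩ := bd_cell h hη cT' (by
      rintro _ ⟨_, ⟨x, hx, rfl⟩, rfl⟩
      simpa [mk_smul, mem_cell h le, ← Dm_Ω h] using sT hx)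
    have mS := measurable_const_smul (F.n₀ * 1)⁻¹⁻¹ (meas_im rA)
    have h2 := tr_ne C h0 fin (D.fam.cm_P mS (F.n₀ * q : G)) h1 (up_pom C.s (D.fam.cov _) η mS
      fun z => le_trans (measure_mono fun g hg => by exact ⟨_, sI i hg, by simp⟩) (bd z))
    have mL := (cI L' c').measurableSet
    have e1 : (Θ (F.n₀ * q : G)).P _ = C.s.π _ * _ * C.s.π _ :=
      ((D.fam.cov _).P (F.n₀ * 1)⁻¹ (meas_im rA)).symm
    have e2 : (ϑ (F.n₀ * 1 : G)).P _ = C.s.π _ * θ.P _ * C.s.π _ := fm.base _ _ (bd_ind1 mL)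
    have e3 := C.Tr_σ (cm_mul (show Cm W (θ.P _) from a.tx.inv.cm _ (bd_ind1 mL))
      (D.fam.cm_P mS (F.n₀ * q : G))) (F.n₀ * 1)
    rw [← star_eq_adjoint, POM.star_P _ mS, ← e3, C.s.conj_mul, ← e2, e1, C.s.conj_conj,
      mul_inv_cancel, inv_one, map_one, one_mul, mul_one (M := K →L[ℂ] K)] at h2
    exact ne_top_of_le_ne_top h2 (C.t.Tr_mono fun ξ =>
      (fm.isP _).norm_P_mono (meas_im r') mL (sI i') _)
  · rwa [mem_preimage, QuotientGroup.mk_mul_of_mem _ hp]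
  · exact (congrArg _ (im_eq fun _ => Iff.rfl)).trans (fm.base _ _ (bd_ind1 hS.measurableSet))

end Vale.Agent.P092MA
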