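import Vale.Agent.P092MA.Erg

/-!
P092 (helper19): an invariant, covariant and homogeneous form valued measure is scalar.
-/

set_option linter.all false

open scoped InnerProductSpace ENNReal NNReal ComplexConjugate Pointwise
open MeasureTheory Filter Topology ContinuousLinearMap Set

namespace Vale.Agent.P092MA

open Vale.Agent.P092CP
open Vale.Agent.P092.RC (Cm)

theorem exists_dens {Y : Type} [MeasurableSpace Y] {ρ ν : Measure Y} [SigmaFinite ν] {a : ℝ≥0∞}
    (ha : a ≠ ∞) (h : ∀ S, MeasurableSet S → ρ S ≤ a * ν S) :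
    ∃ ψ : Y → ℝ≥0∞, Measurable ψ ∧ (∀ y, ψ y ≤ a) ∧
      ∀ S, MeasurableSet S → ρ S = ∫⁻ y in S, ψ y ∂ν := by
  lift a to ℝ≥0 using ha
  have h1 : ρ ≤ a • ν := Measure.le_iff.2 h
  have := Measure.sigmaFinite_of_le _ h1
  have h2 : ρ ≪ ν := (Measure.absolutelyContinuous_of_le h1).trans
    Measure.smul_absolutelyContinuous
  have h3 : ρ.rnDeriv ν ≤ᵐ[ν] fun _ => a :=
    ae_le_of_forall_setLIntegral_le_of_sigmaFinite (Measure.measurable_rnDeriv _ _) fun S hS _ => by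
      rw [Measure.setLIntegral_rnDeriv h2, setLIntegral_const]; exact h S hS
  refine ⟨fun y => min (ρ.rnDeriv ν y) a, (Measure.measurable_rnDeriv _ _).min measurable_const,
    fun y => min_le_right _ _, fun S hS => ?_⟩
  rw [← Measure.setLIntegral_rnDeriv h2]
  exact lintegral_congr_ae (ae_restrict_of_ae (h3.mono fun y hy => (min_eq_left hy).symm))

variable {G G' K : Type} [Group G] [TopologicalSpace G] [IsTopologicalGroup G]
  [LocallyCompactSpace G] [SecondCountableTopology G] [T2Space G] [MeasurableSpace G] [BorelSpace G]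
  [Group G'] [TopologicalSpace G'] [IsTopologicalGroup G'] [LocallyCompactSpace G']
  [SecondCountableTopology G'] [T2Space G'] [MeasurableSpace G'] [BorelSpace G']
  [NormedAddCommGroup K] [InnerProductSpace ℂ K] [CompleteSpace K] {μ : Measure G}
  [μ.IsHaarMeasure] {μ' : Measure G'} [μ'.IsHaarMeasure] {W : Set (K →L[ℂ] K)}
  {Y : Type} [TopologicalSpace Y] [T2Space Y] [LocallyCompactSpace Y] [SecondCountableTopology Y]
  [MeasurableSpace Y] [BorelSpace Y] [MulAction G' Y] [ContinuousSMul G' Y]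
  [MulAction.IsPretransitive G' Y]

/-- a covariant measure with values in the forms affiliated with the finite source algebra -/
structure QF (C : Cpl μ μ' W) (m : K → Measure Y) : Prop where
  aff : ∀ S, MeasurableSet S → Aff C fun ξ => m ξ S
  cov : ∀ h ξ S, MeasurableSet S → m (C.t.π h⁻¹ ξ) S = m ξ ((fun ζ => h⁻¹ • ζ) ⁻¹' S)

/-- `o` is a stable point for the inverse of `T`, and volumes decrease at least like `κ⁻ⁿ` -/
structure Ctr (μ' : Measure G') (o : Y) (T : Y → Y) (κ : ℝ≥0∞) : Prop where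
  meas : Measurable T
  fin : κ ≠ ∞
  stab : ∀ V ∈ 𝓝 o, ∃ S ∈ 𝓝 o, ∀ n, T^[n] ⁻¹' S ⊆ V
  vol : ∃ S ∈ 𝓝 o, ∀ L, IsCompact L → ∃ c, c ≠ ∞ ∧
    ∀ n, μ' {g | g ∈ L ∧ g • o ∈ T^[n] ⁻¹' S} * κ ^ n ≤ c

/-- homogeneity -/
def Sc (C : Cpl μ μ' W) (m : K → Measure Y) (b : G') (T : Y → Y) (κ : ℝ≥0∞) : Prop :=
  ∀ ξ S, MeasurableSet S → m ξ (T ⁻¹' S) * κ = m (C.t.π b⁻¹ ξ) S

variable {C : Cpl μ μ' W} {m : K → Measure Y} {o : Y} {T : Y → Y} {κ : ℝ≥0∞} {b : G'}

theorem Sc.iter (sc : Sc C m b T κ) (hT : Measurable T) {S : Set Y} (hS : MeasurableSet S) (n : ℕ) :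
    ∀ ξ, m ξ (T^[n] ⁻¹' S) * κ ^ n = m (C.t.π (b ^ n)⁻¹ ξ) S := by
  induction n with
  | zero => simp
  | succ n ih =>
    intro ξ
    rw [Function.iterate_succ, preimage_comp, pow_succ', ← mul_assoc, sc _ _ (hT.iterate n hS), ih,
      pi_ap, pow_succ', mul_inv_rev]

theorem QF.inv (hm : QF C m) : SMulInvariantMeasure G' Y (m C.s.Ω) := ⟨fun g S hS => by
  have := hm.cov g⁻¹ C.s.Ω S hS
  rw [inv_inv] at this
  exact this.symm.trans ((hm.aff S hS).t_Ω g)⟩

theorem QF.locFin (hm : QF C m) (hT : Ctr μ' o T κ) (sc : Sc C m b T κ) (hb : ErgB C b) {ξ : K}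
    (h0 : ξ ≠ 0) {F : Set Y} (hF : F ∈ 𝓝 o) (fv : m ξ F ≠ ∞) :
    IsLocallyFiniteMeasure (m C.s.Ω) := by
  have := C.t.right
  have := C.t.inv
  have := hm.inv
  have h1 : (fun p : G' × Y => p.1 • p.2) ⁻¹' interior F ∈ 𝓝 ((1 : G'), o) :=
    continuous_smul.continuousAt (by simpa using interior_mem_nhds.2 hF)
  obtain ⟨U₀, hU₀, V, hV, hUV⟩ := mem_nhds_prod_iff.1 h1
  obtain ⟨U, hU, hU', cU⟩ := local_compact_nhds hU₀
  obtain ⟨S₁, hS₁, e₁⟩ := hT.stab _ (inter_mem hV (orb_nhds o hU))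
  obtain ⟨S₀, hS₀, e₀⟩ := hT.vol
  obtain ⟨c, hc, e⟩ := e₀ _ (cU.inv.mul (cU.mul cU))
  set S := interior (S₁ ∩ S₀)
  have hS : S ∈ 𝓝 o := interior_mem_nhds.2 (inter_mem hS₁ hS₀)
  have mS : MeasurableSet S := isOpen_interior.measurableSet
  have sub : ∀ n, T^[n] ⁻¹' S ⊆ V ∩ (fun g : G' => g • o) '' U := fun n =>
    (preimage_mono (interior_subset.trans inter_subset_left)).trans (e₁ n)
  let ρ := (m ξ).restrict (interior F)
  have : IsFiniteMeasure ρ :=
    isFiniteMeasure_restrict.2 (ne_top_of_le_ne_top fv (measure_mono interior_subset))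
  have key := (hm.aff S mS).erg hb cU.measure_lt_top.ne ξ (X := c * ρ univ) fun n => by
    have mn : MeasurableSet (T^[n] ⁻¹' S) := hT.meas.iterate n mS
    have mp : MeasurableSet {p : G' × Y | p.1⁻¹ • p.2 ∈ T^[n] ⁻¹' S} :=
      (by fun_prop : Continuous fun p : G' × Y => p.1⁻¹ • p.2).measurable mn
    have a1 : ∀ g ∈ U, m (C.t.π (b ^ n)⁻¹ (C.t.π g⁻¹ ξ)) S
        = ρ (Prod.mk g ⁻¹' {p : G' × Y | p.1⁻¹ • p.2 ∈ T^[n] ⁻¹' S}) * κ ^ n := fun g hg => by
      rw [← sc.iter hT.meas mS, hm.cov _ _ _ mn, Measure.restrict_eq_self]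
      · rfl
      · intro ζ hζ
        have := hUV (mk_mem_prod (hU' hg) (sub n hζ).1)
        simpa using this
    rw [setLIntegral_congr_fun cU.measurableSet a1, lintegral_mul_const' _ _ (ENNReal.pow_ne_top hT.fin),
      ← Measure.prod_apply mp, Measure.prod_apply_symm mp,
      ← lintegral_mul_const' _ _ (ENNReal.pow_ne_top hT.fin), ← lintegral_const]
    refine lintegral_mono fun ζ => ?_
    rw [Measure.restrict_apply' cU.measurableSet]
    rcases eq_empty_or_nonempty ((fun g : G' => (g, ζ)) ⁻¹'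
      {p : G' × Y | p.1⁻¹ • p.2 ∈ T^[n] ⁻¹' S} ∩ U) with h | ⟨g₀, h1, h2⟩
    · exact (mul_le_mul_left (measure_mono h.subset) _).trans (by simp)
    obtain ⟨u, hu, e'⟩ := (sub n h1).2
    refine le_trans (mul_le_mul_left ?_ _) (e n)
    refine le_trans ?_ (measure_preimage_mul_right μ' (g₀ * u) _).le
    refine le_trans (measure_mono fun g hg => ?_) (Measure.measure_preimage_inv μ' _).le
    refine ⟨Set.mul_mem_mul (Set.inv_mem_inv.2 hg.2) (Set.mul_mem_mul h2 hu), ?_⟩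
    have e2 : (g⁻¹ * (g₀ * u)) • o = g⁻¹ • ζ := by
      rw [mul_smul, mul_smul, show u • o = g₀⁻¹ • ζ from e', smul_inv_smul]
    show T^[n] ((g⁻¹ * (g₀ * u)) • o) ∈ S₀
    rw [e2]
    exact (interior_subset hg.1).2
  refine P092MA.locFin (G := G') hS fun h => ?_
  rw [h, ENNReal.top_mul (mul_ne_zero (by simpa using h0)
    (Measure.measure_pos_of_mem_nhds μ' hU).ne')] at key
  exact ENNReal.mul_ne_top hc (measure_ne_top _ _) (top_le_iff.1 key)

theorem QF.low (hm : QF C m) (hT : Ctr μ' o T κ) (sc : Sc C m b T κ) (hb : ErgB C b)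
    [IsLocallyFiniteMeasure (m C.s.Ω)] {x : K →L[ℂ] K} (hx : C.s.M x) {A : Set Y}
    (hA : MeasurableSet A) : m C.s.Ω A * ‖x C.s.Ω‖ₑ ^ 2 ≤ m (x C.s.Ω) A := by
  have := C.t.right
  have := hm.inv
  rcases eq_or_ne (m C.s.Ω) 0 with h0 | h0
  · simp [h0]
  have := openPos G' h0
  have fa : ‖x‖ₑ ^ 2 ≠ ∞ := ENNReal.pow_ne_top enorm_ne_top
  obtain ⟨ψ, mψ, bψ, hψ⟩ := exists_dens fa fun S hS => (hm.aff S hS).M_Ω hx
  have mo : Measurable fun g : G' => ψ (g • o) := mψ.comp (by fun_prop : Continuous _).measurable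
  have h1 : (fun _ => ‖x C.s.Ω‖ₑ ^ 2) ≤ᵐ[μ'] fun g : G' => ψ (g • o) := by
    refine ae_le_of_forall_setLIntegral_le_of_sigmaFinite measurable_const fun E hE fE => ?_
    rw [setLIntegral_const]
    refine ENNReal.le_of_forall_pos_le_add fun ε hε fin => ?_
    obtain ⟨S₁, hS₁, e₁⟩ := hT.stab _ ((cont_av (μ := μ') hE fE.ne fa bψ).continuousAt
      (gt_mem_nhds (ENNReal.lt_add_right fin.ne (ENNReal.coe_ne_zero.2 hε.ne'))))
    obtain ⟨S₀, hS₀, f₀⟩ := (m C.s.Ω).finiteAt_nhds o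
    set S := interior (S₁ ∩ S₀)
    have hS : S ∈ 𝓝 o := interior_mem_nhds.2 (inter_mem hS₁ hS₀)
    have mS : MeasurableSet S := isOpen_interior.measurableSet
    have key := (hm.aff S mS).erg hb fE.ne (x C.s.Ω) (X := m C.s.Ω S * (av μ' E ψ o + ε)) fun n => by
      have mn : MeasurableSet (T^[n] ⁻¹' S) := hT.meas.iterate n mS
      have a1 : ∀ g : G', m (C.t.π (b ^ n)⁻¹ (C.t.π g⁻¹ (x C.s.Ω))) S
          = (∫⁻ y in T^[n] ⁻¹' S, ψ (g • y) ∂m C.s.Ω) * κ ^ n := fun g => by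
        rw [← sc.iter hT.meas mS, hm.cov _ _ _ mn, hψ _ (measurable_const_smul g⁻¹ mn),
          ← (measurePreserving_smul g (m C.s.Ω)).setLIntegral_comp_preimage_emb
            (measurableEmbedding_const_smul g), ← preimage_comp]
        simp [Function.comp_def]
      simp only [a1]
      rw [lintegral_mul_const' _ _ (ENNReal.pow_ne_top hT.fin), ← lint_av E mψ,
        ← (hm.aff S mS).t_Ω (b ^ n)⁻¹, ← sc.iter hT.meas mS, mul_right_comm]
      gcongr
      rw [mul_comm, ← setLIntegral_const]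
      exact setLIntegral_mono' mn fun y hy =>
        (e₁ n (preimage_mono (interior_subset.trans inter_subset_left) hy)).le
    exact (ENNReal.mul_le_mul_iff_right (Measure.measure_pos_of_mem_nhds _ hS).ne'
      ((measure_mono (interior_subset.trans inter_subset_right)).trans_lt f₀).ne).1 key
  have h2 : ∀ᵐ y ∂m C.s.Ω, ‖x C.s.Ω‖ₑ ^ 2 ≤ ψ y :=
    null_of_orb (μ := μ') (y := o) (measurableSet_le measurable_const mψ).compl h1
  rw [hψ A hA, mul_comm, ← setLIntegral_const]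
  exact lintegral_mono_ae (ae_restrict_of_ae h2)

/-- **D5** -/
theorem QF.d5 (hm : QF C m) (hT : Ctr μ' o T κ) (sc : Sc C m b T κ) (hb : ErgB C b) {ξ : K}
    (h0 : ξ ≠ 0) {F : Set Y} (hF : F ∈ 𝓝 o) (fv : m ξ F ≠ ∞) (η : K) :
    m η = ‖η‖ₑ ^ 2 • m C.s.Ω := by
  have := hm.locFin hT sc hb h0 hF fv
  refine (Measure.ext_iff_of_iUnion_eq_univ (iUnion_spanningSets (m C.s.Ω))).2 fun i => ?_
  ext A hA
  have mA := hA.inter (measurableSet_spanningSets (m C.s.Ω) i)
  rw [Measure.restrict_apply hA, Measure.restrict_apply hA, Measure.smul_apply, smul_eq_mul]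
  exact (hm.aff _ mA).scalar ((measure_mono inter_subset_right).trans_lt
    (measure_spanningSets_lt_top _ i)).ne (fun x hx => hm.low hT sc hb hx mA) η

end Vale.Agent.P092MA
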