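import Vale.Agent.P092MA.In

/-!
P092 (helper19): the dual family, as a continuous Radon-Nikodym density.
-/

set_option linter.all false

open scoped InnerProductSpace ENNReal NNReal ComplexConjugate Pointwise
open MeasureTheory Filter Topology ContinuousLinearMap Set

namespace Vale.Agent.P092MA

open Vale.Agent.P092CP Vale.Agent.P092RD
open Vale.Agent.P092.RC (Cm)
open Vale.Agent.P092.H466 (polar ext_quad)

theorem uniq_le {Y : Type} [TopologicalSpace Y] [MeasurableSpace Y] [BorelSpace Y] {ν : Measure Y}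
    [SigmaFinite ν] [ν.IsOpenPosMeasure] {φ ψ : Y → ℝ≥0∞} (hφ : Continuous φ) (hψ : Continuous ψ)
    (h : ∀ S, MeasurableSet S → ∫⁻ y in S, φ y ∂ν ≤ ∫⁻ y in S, ψ y ∂ν) (y : Y) : φ y ≤ ψ y :=
  (isClosed_le hφ hψ).closure_subset (Measure.dense_of_ae
    (ae_le_of_forall_setLIntegral_le_of_sigmaFinite hφ.measurable fun S hS _ => h S hS) y)

theorem uniq_eq {Y : Type} [TopologicalSpace Y] [MeasurableSpace Y] [BorelSpace Y] {ν : Measure Y}
    [SigmaFinite ν] [ν.IsOpenPosMeasure] {φ ψ : Y → ℝ≥0∞} (hφ : Continuous φ) (hψ : Continuous ψ)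
    (h : ∀ S, MeasurableSet S → ∫⁻ y in S, φ y ∂ν = ∫⁻ y in S, ψ y ∂ν) (y : Y) : φ y = ψ y :=
  (uniq_le hφ hψ (fun S hS => (h S hS).le) y).antisymm (uniq_le hψ hφ (fun S hS => (h S hS).ge) y)

theorem sq_le_add {K : Type} [NormedAddCommGroup K] (a b : K) :
    ‖a‖ₑ ^ 2 ≤ ‖b‖ₑ ^ 2 + ‖a - b‖ₑ * (‖a‖ₑ + ‖b‖ₑ) := by
  have h : ‖a‖ ^ 2 ≤ ‖b‖ ^ 2 + ‖a - b‖ * (‖a‖ + ‖b‖) := by
    nlinarith [norm_sub_norm_le a b, norm_nonneg a, norm_nonneg b]
  simp only [enorm_eq_nnnorm]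
  exact_mod_cast (show ‖a‖₊ ^ 2 ≤ ‖b‖₊ ^ 2 + ‖a - b‖₊ * (‖a‖₊ + ‖b‖₊) from h)

/-- the modulus of continuity -/
noncomputable def om {K : Type} [NormedAddCommGroup K] (η ξ : K) : ℝ≥0∞ :=
  ‖η - ξ‖ₑ * (‖η‖ₑ + ‖ξ‖ₑ)

theorem om_comm {K : Type} [NormedAddCommGroup K] (η ξ : K) : om η ξ = om ξ η := by
  rw [om, om, enorm_sub_rev, add_comm]

theorem tendsto_om {K : Type} [NormedAddCommGroup K] (ξ : K) :
    Tendsto (fun η => om η ξ) (𝓝 ξ) (𝓝 0) := by
  have : Continuous fun η : K => ((‖η - ξ‖₊ * (‖η‖₊ + ‖ξ‖₊) : ℝ≥0) : ℝ≥0∞) := by fun_prop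
  simpa [om, enorm_eq_nnnorm] using this.tendsto ξ

theorem cont_of_om {K : Type} [NormedAddCommGroup K] {f : K → ℝ≥0∞} (fin : ∀ ξ, f ξ ≠ ∞)
    (h : ∀ η ξ, f η ≤ f ξ + om η ξ) : Continuous f := continuous_iff_continuousAt.2 fun ξ =>
  (ENNReal.tendsto_nhds (fin ξ)).2 fun ε hε =>
    ((tendsto_om ξ).eventually (Iic_mem_nhds hε)).mono fun η hη =>
      ⟨tsub_le_iff_right.2 ((h ξ η).trans (add_le_add le_rfl (om_comm η ξ ▸ hη))),
        (h η ξ).trans (add_le_add le_rfl hη)⟩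

variable {G G' K : Type} [Group G] [TopologicalSpace G] [IsTopologicalGroup G]
  [LocallyCompactSpace G] [SecondCountableTopology G] [T2Space G] [MeasurableSpace G] [BorelSpace G]
  [Group G'] [TopologicalSpace G'] [IsTopologicalGroup G'] [LocallyCompactSpace G']
  [SecondCountableTopology G'] [T2Space G'] [MeasurableSpace G'] [BorelSpace G']
  [NormedAddCommGroup K] [InnerProductSpace ℂ K] [CompleteSpace K] {μ : Measure G}
  [μ.IsHaarMeasure] {μ' : Measure G'} [μ'.IsHaarMeasure] {W : Set (K →L[ℂ] K)}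
  {Z : Type} [TopologicalSpace Z] [T2Space Z] [LocallyCompactSpace Z] [SecondCountableTopology Z]
  [MeasurableSpace Z] [BorelSpace Z] [MulAction G Z] [ContinuousSMul G Z]
  [MulAction.IsPretransitive G Z]
  {Y : Type} [TopologicalSpace Y] [T2Space Y] [LocallyCompactSpace Y] [SecondCountableTopology Y]
  [MeasurableSpace Y] [BorelSpace Y] [MulAction G' Y] [ContinuousSMul G' Y]
  [MulAction.IsPretransitive G' Y]
  {C : Cpl μ μ' W} {θ : Z → POM Y K} {ν : Measure Z} {ν' : Measure Y} {S : Set Y} {A : Set Z}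

theorem lint_smul [SMulInvariantMeasure G' Y ν'] (g : G') (ψ : Y → ℝ≥0∞) (S : Set Y) :
    ∫⁻ y in (fun ζ => g⁻¹ • ζ) ⁻¹' S, ψ y ∂ν' = ∫⁻ y in S, ψ (g • y) ∂ν' := by
  rw [← (measurePreserving_smul g ν').setLIntegral_comp_preimage_emb
    (measurableEmbedding_const_smul g), ← preimage_comp]
  simp [Function.comp_def]

/-- the dual family -/
structure Dual (C : Cpl μ μ' W) (ν : Measure Z) (θ : Z → POM Y K) (ν' : Measure Y)
    (Θ : Y → POM Z K) : Prop where
  fam : Fam C.swap Θ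
  one : ∀ y, (Θ y).f 1 = 1
  eq : ∀ ξ A S, MeasurableSet A → MeasurableSet S →
    ∫⁻ y in S, (Θ y).ν ξ A ∂ν' = ∫⁻ z in A, (θ z).ν ξ S ∂ν

namespace D5

variable (h : D5 C ν θ ν')

include h

theorem res_le (A : Set Z) (hS : MeasurableSet S) (ξ : K) :
    mm (ν.restrict A) θ ξ S ≤ ‖ξ‖ₑ ^ 2 * ν' S := by
  rw [h.fam.mm_apply _ hS, ← h.lint hS]
  exact lintegral_mono' Measure.restrict_le_self le_rfl

theorem res_om (A : Set Z) (hS : MeasurableSet S) (η ξ : K) :
    mm (ν.restrict A) θ η S ≤ mm (ν.restrict A) θ ξ S + om η ξ * ν' S := by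
  have m := fun ξ => (h.fam.cont hS ξ).measurable
  have r : ∀ x : ℝ≥0∞, (x ^ 2) ^ (1 / 2 : ℝ) = x := fun x => by
    rw [← ENNReal.rpow_two, ← ENNReal.rpow_mul]; norm_num
  have c : ∀ ξ, Measurable fun z => ‖(θ z).P S ξ‖ₑ := fun ξ => by
    simpa only [← (h.isP _).enorm_P_sq hS, r] using (m ξ).pow_const (1 / 2 : ℝ)
  have cs : ∀ a b : K, ∫⁻ z in A, ‖(θ z).P S a‖ₑ * ‖(θ z).P S b‖ₑ ∂ν ≤ ‖a‖ₑ * ‖b‖ₑ * ν' S := by
    intro a b
    refine (ENNReal.lintegral_mul_le_Lp_mul_Lq _ Real.HolderConjugate.two_two (c a).aemeasurable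
      (c b).aemeasurable).trans ?_
    have e : ∀ a : K, (∫⁻ z in A, ‖(θ z).P S a‖ₑ ^ (2 : ℝ) ∂ν) ^ (1 / 2 : ℝ)
        ≤ ‖a‖ₑ * ν' S ^ (1 / 2 : ℝ) := fun a => by
      have := ENNReal.rpow_le_rpow (h.res_le A hS a) (z := 1 / 2) (by norm_num)
      rw [h.fam.mm_apply _ hS, ENNReal.mul_rpow_of_nonneg _ _ (by norm_num), r] at this
      simpa only [← (h.isP _).enorm_P_sq hS, ENNReal.rpow_two] using this
    refine (mul_le_mul' (e a) (e b)).trans_eq ?_
    rw [mul_mul_mul_comm, ← ENNReal.rpow_add_of_nonneg _ _ (by norm_num) (by norm_num)]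
    norm_num
  rw [h.fam.mm_apply _ hS, h.fam.mm_apply _ hS, om, mul_add, add_mul]
  refine le_trans ?_ (add_le_add le_rfl (add_le_add (cs (η - ξ) η) (cs (η - ξ) ξ)))
  rw [← lintegral_add_left ((c _).fun_mul (c _)), ← lintegral_add_left (m ξ)]
  refine lintegral_mono fun z => ?_
  simp only [← (h.isP _).enorm_P_sq hS, map_sub, ← mul_add]
  exact sq_le_add _ _

theorem dens (A : Set Z) (ξ : K) : ∃ φ : Y → ℝ≥0∞, Continuous φ ∧
    ∀ S, MeasurableSet S → ∫⁻ y in S, φ y ∂ν' = mm (ν.restrict A) θ ξ S := by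
  have := h.inv'
  have := h.fin'
  have := h.pos'
  have := C.t.right
  have fa : ‖ξ‖ₑ ^ 2 ≠ ∞ := ENNReal.pow_ne_top enorm_ne_top
  obtain ⟨ψ, mψ, bψ, hψ⟩ := exists_dens fa fun S hS => h.res_le A hS ξ
  have fin : ∀ y, ψ y ≠ ∞ := fun y => ne_top_of_le_ne_top fa (bψ y)
  obtain ⟨φ, c, e⟩ := exists_cont (ν := ν') μ' mψ fa bψ fun ε hε => by
    have t : Tendsto (fun g : G' => C.t.π g⁻¹ ξ) (𝓝 1) (𝓝 ξ) := by
      simpa [Function.comp_def] using ((C.t.cont ξ).comp continuous_inv).tendsto 1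
    filter_upwards [((tendsto_om ξ).comp t).eventually (Iic_mem_nhds (ENNReal.ofReal_pos.2 hε))]
      with g hg
    have mg : Measurable fun y => ψ (g • y) := mψ.comp (measurable_const_smul g)
    have a : ∀ S, MeasurableSet S → ∫⁻ y in S, ψ (g • y) ∂ν'
        = mm (ν.restrict A) θ (C.t.π g⁻¹ ξ) S := fun S hS => by
      rw [h.fam.mm_cov _ hS, hψ _ (measurable_const_smul g⁻¹ hS),
        lint_smul]
    have b1 : ∀ᵐ y ∂ν', ψ (g • y) ≤ ψ y + .ofReal ε :=
      ae_le_of_forall_setLIntegral_le_of_sigmaFinite mg fun S hS _ => by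
        rw [a S hS, lintegral_add_left mψ, ← hψ S hS, setLIntegral_const]
        exact (h.res_om A hS _ ξ).trans (add_le_add le_rfl (mul_le_mul_left hg _))
    have b2 : ∀ᵐ y ∂ν', ψ y ≤ ψ (g • y) + .ofReal ε :=
      ae_le_of_forall_setLIntegral_le_of_sigmaFinite mψ fun S hS _ => by
        rw [lintegral_add_left mg, a S hS, ← hψ S hS, setLIntegral_const]
        exact (h.res_om A hS ξ _).trans (add_le_add le_rfl (mul_le_mul_left (om_comm _ ξ ▸ hg) _))
    filter_upwards [b1, b2] with y c1 c2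
    have d1 := ENNReal.toReal_mono (ENNReal.add_ne_top.2 ⟨fin _, ENNReal.ofReal_ne_top⟩) c1
    have d2 := ENNReal.toReal_mono (ENNReal.add_ne_top.2 ⟨fin _, ENNReal.ofReal_ne_top⟩) c2
    rw [ENNReal.toReal_add (fin _) ENNReal.ofReal_ne_top, ENNReal.toReal_ofReal hε.le] at d1 d2
    exact abs_le.2 ⟨by linarith, by linarith⟩
  refine ⟨fun y => .ofReal (φ y), ENNReal.continuous_ofReal.comp c, fun S hS => ?_⟩
  rw [hψ S hS]
  exact lintegral_congr_ae (ae_restrict_of_ae (e.mono fun y hy => by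
    simp only [hy, ENNReal.ofReal_toReal (fin y)]))

/-- **The dual family exists.** -/
theorem exists_dual : ∃ Θ, Dual C ν θ ν' Θ := by
  have := h.inv
  have := h.inv'
  have := h.fin'
  have := h.pos'
  choose D c e using h.dens
  have m := fun A ξ => (c A ξ).measurable
  have bd : ∀ A ξ y, D A ξ y ≤ ‖ξ‖ₑ ^ 2 := fun A ξ => uniq_le (ν := ν') (c A ξ) continuous_const
    fun S hS => by rw [e A ξ S hS, setLIntegral_const]; exact h.res_le A hS ξ
  have fin : ∀ A ξ y, D A ξ y ≠ ∞ := fun A ξ y =>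
    ne_top_of_le_ne_top (ENNReal.pow_ne_top enorm_ne_top) (bd A ξ y)
  have un : ∀ ξ y, D univ ξ y = ‖ξ‖ₑ ^ 2 := fun ξ => uniq_eq (ν := ν') (c _ ξ) continuous_const
    fun S hS => by rw [e _ ξ S hS, setLIntegral_const, Measure.restrict_univ, h.eq]; rfl
  have cov : ∀ A ξ (g : G') y, D A ξ (g • y) = D A (C.t.π g⁻¹ ξ) y := fun A ξ g =>
    uniq_eq (ν := ν') ((c A ξ).comp (continuous_const_smul g)) (c _ _) fun S hS => by
      rw [e _ _ S hS, h.fam.mm_cov _ hS, ← e _ _ _ (measurable_const_smul g⁻¹ hS),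
        lint_smul]
  have lip : ∀ A η ξ y, D A η y ≤ D A ξ y + om η ξ := fun A η ξ =>
    uniq_le (ν := ν') (c _ _) ((c _ _).add continuous_const) fun S hS => by
      rw [lintegral_add_left (m _ _), e _ _ S hS, e _ _ S hS, setLIntegral_const]
      exact h.res_om A hS η ξ
  have sum : ∀ (A : ℕ → Set Z), (∀ n, MeasurableSet (A n)) → Pairwise (Function.onFun Disjoint A) →
      ∀ (F : Set ℕ) ξ S, MeasurableSet S → ∫⁻ y in S, D (⋃ n : F, A n) ξ y ∂ν'
        = ∫⁻ y in S, ∑' n : F, D (A n) ξ y ∂ν' := fun A hA hd F ξ S hS => by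
    rw [lintegral_tsum fun n => (m _ _).aemeasurable, e _ _ S hS, h.fam.mm_apply _ hS,
      lintegral_iUnion (fun n => hA _) (hd.comp_of_injective Subtype.val_injective)]
    simp only [e _ _ S hS, h.fam.mm_apply _ hS]
  have add : ∀ (A : ℕ → Set Z), (∀ n, MeasurableSet (A n)) → Pairwise (Function.onFun Disjoint A) →
      ∀ ξ y, D (⋃ n, A n) ξ y = ∑' n, D (A n) ξ y := fun A hA hd => by
    have a1 : ∀ (F : Finset ℕ) ξ y, D (⋃ n : (F : Set ℕ), A n) ξ y = ∑ n ∈ F, D (A n) ξ y :=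
      fun F ξ => uniq_eq (ν := ν') (c _ _) (continuous_finset_sum _ fun n _ => c _ _) fun S hS => by
        rw [sum A hA hd F ξ S hS]
        exact lintegral_congr fun y => Finset.tsum_subtype' F fun n => D (A n) ξ y
    have a2 : ∀ y, Continuous fun ξ => ∑' n, D (A n) ξ y := fun y => cont_of_om
      (fun ξ => ne_top_of_le_ne_top (ENNReal.pow_ne_top enorm_ne_top)
        (ENNReal.summable.tsum_le_of_sum_le fun F => (a1 F ξ y).ge.trans (bd _ ξ y)))
      fun η ξ => ENNReal.summable.tsum_le_of_sum_le fun F => ((a1 F η y).ge.trans (lip _ η ξ y)).trans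
        (add_le_add ((a1 F ξ y).le.trans (ENNReal.sum_le_tsum F)) le_rfl)
    refine fun ξ y => uniq_eq (ν := ν') (ψ := fun y => ∑' n, D (A n) ξ y) (c _ _)
      (cont_of_orb (G := G') y ?_) (fun S hS => ?_) y
    · simp only [cov]
      exact (a2 y).comp ((C.t.cont ξ).comp continuous_inv)
    · have := sum A hA hd univ ξ S hS
      simp only [iUnion_coe_set, mem_univ, iUnion_true] at this
      exact this.trans (lintegral_congr fun y => tsum_univ fun n => D (A n) ξ y)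
  let N : Y → K → Measure Z := fun y ξ => Measure.ofMeasurable (fun A _ => D A ξ y)
    (uniq_eq (ν := ν') (c _ _) continuous_const (fun S hS => by
      rw [e _ _ S hS, h.fam.mm_apply _ hS]; simp) y) fun A hA hd => add A hA hd ξ y
  have eN : ∀ y ξ A, MeasurableSet A → N y ξ A = D A ξ y := fun y ξ A hA =>
    Measure.ofMeasurable_apply A hA
  have hQ : ∀ y A, ∃ T : K →L[ℂ] K, ∀ ξ, ⟪ξ, T ξ⟫_ℂ = ((D A ξ y).toReal : ℂ) := fun y A => by
    have par : ∀ a b, D A (a + b) y + D A (a - b) y = 2 * D A a y + 2 * D A b y := fun a b =>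
      uniq_eq (ν := ν') ((c _ _).add (c _ _))
        (((ENNReal.continuous_const_mul ENNReal.ofNat_ne_top).comp (c _ _)).add
          ((ENNReal.continuous_const_mul ENNReal.ofNat_ne_top).comp (c _ _))) (fun S hS => by
        simp only [Function.comp_def, Pi.add_apply]
        rw [lintegral_add_left (m _ _), lintegral_add_left ((m _ _).const_mul _),
          lintegral_const_mul _ (m _ _), lintegral_const_mul _ (m _ _)]
        simp only [e _ _ S hS]
        exact (h.fam.qe _ hS).par a b) y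
    have hom : ∀ (t : ℂ) a, D A (t • a) y = ‖t‖ₑ ^ 2 * D A a y := fun t a =>
      uniq_eq (ν := ν') (c _ _) ((ENNReal.continuous_const_mul
        (ENNReal.pow_ne_top enorm_ne_top)).comp (c _ _)) (fun S hS => by
        simp only [Function.comp_def]
        rw [lintegral_const_mul _ (m _ _), e _ _ S hS, e _ _ S hS]
        exact (h.fam.qe _ hS).hom t a) y
    have f := fun ξ => fin A ξ y
    obtain ⟨T, -, hT⟩ := QR.exists_op (Q := fun ξ => (D A ξ y).toReal) ⟨fun a b => by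
      rw [← ENNReal.toReal_add (f _) (f _), par, ENNReal.toReal_add
        (ENNReal.mul_ne_top ENNReal.ofNat_ne_top (f _)) (ENNReal.mul_ne_top ENNReal.ofNat_ne_top (f _))]
      simp, fun t a => by simp [hom], fun _ => ENNReal.toReal_nonneg⟩ zero_le_one fun ξ => by
      simpa using ENNReal.toReal_mono (ENNReal.pow_ne_top enorm_ne_top) (bd A ξ y)
    exact ⟨T, hT⟩
  choose Q hQ using hQ
  choose Θ e1 e2 using fun y => POM.exists_ofSets (N y)
    (fun ξ => (eN y ξ _ .univ).trans_le (bd _ ξ y)) (Q y) fun A hA ξ => by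
      rw [hQ, Measure.real, eN y ξ A hA]
  have eΘ : ∀ y ξ A, MeasurableSet A → (Θ y).ν ξ A = D A ξ y := fun y ξ A hA => by
    rw [e1, eN y ξ A hA]
  refine ⟨Θ, ⟨fun y f hf => cm_of_unitary C.Wadj fun u hu e' => comm_of_quad hu fun ξ => ?_,
    fun g y f hf => ext_quad fun ξ => ?_, fun y g f hf => ext_quad fun ξ => ?_⟩,
    fun y => ext_quad fun ξ => ?_, fun ξ A S hA hS => ?_⟩
  · rw [(Θ y).rep _ hf, (Θ y).rep _ hf]
    congr 1
    ext A hA
    rw [eΘ _ _ _ hA, eΘ _ _ _ hA]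
    exact uniq_eq (ν := ν') (c _ _) (c _ _) (fun S hS => by
      rw [e _ _ S hS, e _ _ S hS, h.fam.mm_uni _ hS hu e']) y
  · rw [mapp, mapp, ← adjoint_inner_left (C.swap.s.π g), C.swap.s.adj, (Θ y).rep _ hf,
      (Θ _).rep _ hf]
    congr 1
    ext A hA
    rw [eΘ _ _ _ hA, eΘ _ _ _ hA]
    exact cov _ _ _ _
  · have mg := measurable_const_smul (α := Z) g⁻¹
    rw [mapp, mapp, ← adjoint_inner_left, C.swap.t.adj, (Θ y).rep _ hf, (Θ y).rep _ (hf.comp mg),
      ← integral_map mg.aemeasurable hf.meas.aestronglyMeasurable]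
    congr 1
    ext A hA
    rw [Measure.map_apply mg hA, eΘ _ _ _ hA, eΘ _ _ _ (mg hA)]
    exact uniq_eq (ν := ν') (c _ _) (c _ _) (fun S hS => by
      rw [e _ _ S hS, e _ _ S hS]
      exact h.fam.mm_mov hS A g ξ) y
  · rw [← POM.P_univ, (Θ y).inner_P .univ, Measure.real, eΘ _ _ _ .univ, un, oapp, inner_self_C]
    simp
  · simp only [eΘ _ _ _ hA, e _ _ S hS, h.fam.mm_apply _ hS]

end D5

end Vale.Agent.P092MA
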