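import Mathlib

/-!
P092 (helper19): measure theory on homogeneous spaces.
-/

set_option linter.all false

open scoped ENNReal NNReal symmDiff
open MeasureTheory Filter Topology Set

namespace Vale.Agent.P092MA

variable {G Y : Type} [Group G] [TopologicalSpace G] [IsTopologicalGroup G] [LocallyCompactSpace G]
  [SecondCountableTopology G] [T2Space G] [MeasurableSpace G] [BorelSpace G] {μ : Measure G}
  [μ.IsHaarMeasure] [μ.IsMulRightInvariant] [TopologicalSpace Y] [T2Space Y] [LocallyCompactSpace Y]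
  [SecondCountableTopology Y] [MeasurableSpace Y] [BorelSpace Y] [MulAction G Y]
  [ContinuousSMul G Y] [MulAction.IsPretransitive G Y] {ν : Measure Y}

theorem open_orb (y : Y) : IsOpenMap fun g : G => g • y := isOpenMap_smul_of_sigmaCompact y

theorem map_orb (y : Y) : map (fun g : G => g • y) (𝓝 1) = 𝓝 y := by
  rw [(open_orb y).map_nhds_eq (by fun_prop), one_smul]

theorem orb_nhds (y : Y) {U : Set G} (hU : U ∈ 𝓝 (1 : G)) : (fun g : G => g • y) '' U ∈ 𝓝 y := by
  rw [← map_orb (G := G) y]; exact image_mem_map hU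

theorem cont_of_orb {X : Type*} [TopologicalSpace X] {f : Y → X} (y : Y)
    (h : Continuous fun g : G => f (g • y)) : Continuous f :=
  ((open_orb y).isQuotientMap (by fun_prop) fun z => MulAction.exists_smul_eq G y z).continuous_iff.2 h

theorem meas_act {S : Set Y} (hS : MeasurableSet S) : MeasurableSet {p : G × Y | p.1 • p.2 ∈ S} :=
  (continuous_smul (M := G) (X := Y)).measurable hS

theorem orb_mul [SFinite ν] [SMulInvariantMeasure G Y ν] (y : Y) {N : Set Y}
    (hN : MeasurableSet N) : μ univ * ν N = μ {g | g • y ∈ N} * ν univ := by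
  have h1 := Measure.prod_apply (μ := μ) (ν := ν) (meas_act hN)
  have h2 := Measure.prod_apply_symm (μ := μ) (ν := ν) (meas_act hN)
  have e1 : ∀ g : G, ν (Prod.mk g ⁻¹' {p : G × Y | p.1 • p.2 ∈ N}) = ν N := fun g =>
    measure_preimage_smul ν g N
  have e2 : ∀ z : Y, μ ((fun g => (g, z)) ⁻¹' {p : G × Y | p.1 • p.2 ∈ N}) = μ {g | g • y ∈ N} :=
    fun z => by
      obtain ⟨k, rfl⟩ := MulAction.exists_smul_eq G y z
      rw [← measure_preimage_mul_right μ k {g | g • y ∈ N}]
      congr 1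
      ext g
      simp [mul_smul]
  simp only [e1, e2, lintegral_const] at h1 h2
  rw [mul_comm, ← h1, h2]

theorem null_of_orb [SFinite ν] [SMulInvariantMeasure G Y ν] {y : Y} {N : Set Y}
    (hN : MeasurableSet N) (h : μ {g | g • y ∈ N} = 0) : ν N = 0 := by
  have := orb_mul (μ := μ) (ν := ν) y hN
  rw [h, zero_mul] at this
  exact (mul_eq_zero.1 this).resolve_left (by simpa using NeZero.ne μ)

theorem orb_null [SFinite ν] [SMulInvariantMeasure G Y ν] (h0 : ν ≠ 0) (y : Y) {N : Set Y}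
    (hN : MeasurableSet N) (h : ν N = 0) : μ {g | g • y ∈ N} = 0 := by
  have := orb_mul (μ := μ) (ν := ν) y hN
  rw [h, mul_zero] at this
  exact (mul_eq_zero.1 this.symm).resolve_right (by simpa using h0)

theorem openPos (G : Type) [Group G] [TopologicalSpace G] [MulAction G Y] [ContinuousSMul G Y]
    [MulAction.IsPretransitive G Y] [SMulInvariantMeasure G Y ν] (h0 : ν ≠ 0) :
    ν.IsOpenPosMeasure := ⟨fun U hU ⟨y, hy⟩ h => h0 <| by
  obtain ⟨s, hs, e⟩ := TopologicalSpace.isOpen_iUnion_countable (fun g : G => (g • ·) ⁻¹' U)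
    fun g => hU.preimage (continuous_const_smul g)
  have e' : ⋃ g : G, (g • ·) ⁻¹' U = univ := eq_univ_of_forall fun z => by
    obtain ⟨g, rfl⟩ := MulAction.exists_smul_eq G z y
    exact mem_iUnion.2 ⟨g, hy⟩
  rw [← Measure.measure_univ_eq_zero, ← e', ← e]
  exact (measure_biUnion_null_iff hs).2 fun g _ => (measure_preimage_smul ν g U).trans h⟩

theorem locFin [SMulInvariantMeasure G Y ν] {y : Y} {S : Set Y} (hS : S ∈ 𝓝 y) (h : ν S ≠ ∞) :
    IsLocallyFiniteMeasure ν := ⟨fun z => by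
  obtain ⟨g, rfl⟩ := MulAction.exists_smul_eq G z y
  exact ⟨(g • ·) ⁻¹' S, (continuous_const_smul g).continuousAt hS,
    (measure_preimage_smul ν g S).trans_lt h.lt_top⟩⟩

variable (μ) in
/-- the average over `E` -/
noncomputable def av (E : Set G) (ψ : Y → ℝ≥0∞) (y : Y) : ℝ≥0∞ := ∫⁻ g in E, ψ (g • y) ∂μ

theorem av_smul {E : Set G} (hE : MeasurableSet E) {ψ : Y → ℝ≥0∞} (k : G) (y : Y) :
    av μ E ψ (k • y) = av μ ((· * k⁻¹) ⁻¹' E) ψ y := by
  rw [av, av, ← lintegral_indicator hE, ← lintegral_indicator (measurable_mul_const _ hE),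
    ← lintegral_mul_right_eq_self _ k⁻¹]
  refine lintegral_congr fun g => ?_
  by_cases h : g * k⁻¹ ∈ E <;> simp [h, smul_smul, indicator]

theorem av_le {E E' : Set G} {ψ : Y → ℝ≥0∞} {C : ℝ≥0∞} (hC : ∀ y, ψ y ≤ C) (y : Y) :
    av μ E ψ y ≤ av μ E' ψ y + C * μ (E ∆ E') := by
  refine (lintegral_mono_set (t := E' ∪ E ∆ E') fun g hg => ?_).trans
    ((lintegral_union_le _ _ _).trans (add_le_add le_rfl ?_))
  · by_cases h : g ∈ E'
    · exact Or.inl h
    · exact Or.inr (Or.inl ⟨hg, h⟩)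
  · exact (lintegral_mono fun g => hC _).trans (by rw [setLIntegral_const])

theorem cont_av {E : Set G} (hE : MeasurableSet E) (hE' : μ E ≠ ∞) {ψ : Y → ℝ≥0∞} {C : ℝ≥0∞}
    (hC' : C ≠ ∞) (hC : ∀ y, ψ y ≤ C) : Continuous (av μ E ψ) := by
  refine continuous_iff_continuousAt.2 fun y => ?_
  rw [ContinuousAt, ← map_orb (G := G) y, tendsto_map'_iff]
  let F : C(G × G, G) := ⟨fun p => p.2 * p.1⁻¹, by fun_prop⟩
  have h1 : Tendsto (fun k => μ ((F.curry k ⁻¹' E) ∆ (F.curry 1 ⁻¹' E))) (𝓝 1) (𝓝 0) :=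
    tendsto_measure_symmDiff_preimage_nhds_zero (F.curry.continuous.tendsto 1)
      (Eventually.of_forall fun k => measurePreserving_mul_right μ k⁻¹)
      (measurePreserving_mul_right μ 1⁻¹) hE.nullMeasurableSet hE'
  have e : F.curry 1 ⁻¹' E = E := by ext g; simp [F]
  rw [e] at h1
  have h2 := ENNReal.Tendsto.const_mul h1 (Or.inr hC')
  rw [mul_zero] at h2
  have fin : av μ E ψ y ≠ ∞ := ne_top_of_le_ne_top (ENNReal.mul_ne_top hC' hE')
    ((lintegral_mono fun g => hC _).trans (by rw [setLIntegral_const]))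
  have l1 := ENNReal.Tendsto.sub (tendsto_const_nhds (x := av μ E ψ y)) h2 (Or.inl fin)
  have l2 := (tendsto_const_nhds (x := av μ E ψ y)).add h2
  rw [tsub_zero] at l1
  rw [add_zero] at l2
  refine tendsto_of_tendsto_of_tendsto_of_le_of_le l1 l2 (fun k => ?_) fun k => ?_
  · rw [tsub_le_iff_right, symmDiff_comm, Function.comp, av_smul hE]
    exact av_le hC y
  · rw [Function.comp, av_smul hE]
    exact av_le hC y

theorem lint_av [SFinite ν] (E : Set G) {ψ : Y → ℝ≥0∞} (hψ : Measurable ψ) (S : Set Y) :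
    ∫⁻ y in S, av μ E ψ y ∂ν = ∫⁻ g in E, ∫⁻ y in S, ψ (g • y) ∂ν ∂μ :=
  (lintegral_lintegral_swap (f := fun (g : G) (y : Y) => ψ (g • y))
    (hψ.comp (continuous_smul (M := G) (X := Y)).measurable).aemeasurable).symm

/-- **continuous versions** -/
theorem exists_cont (μ : Measure G) [μ.IsHaarMeasure] [μ.IsMulRightInvariant] [SFinite ν]
    [ν.IsOpenPosMeasure] {ψ : Y → ℝ≥0∞} (hψ : Measurable ψ) {C : ℝ≥0∞} (hC' : C ≠ ∞) (hC : ∀ y, ψ y ≤ C)
    (h : ∀ ε : ℝ, 0 < ε → ∀ᶠ g in 𝓝 (1 : G), ∀ᵐ y ∂ν, |(ψ (g • y)).toReal - (ψ y).toReal| ≤ ε) :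
    ∃ φ : Y → ℝ, Continuous φ ∧ ∀ᵐ y ∂ν, φ y = (ψ y).toReal := by
  have fin : ∀ y, ψ y ≠ ∞ := fun y => ne_top_of_le_ne_top hC' (hC y)
  have key : ∀ n : ℕ, ∃ φ : Y → ℝ, Continuous φ ∧ ∀ᵐ y ∂ν, |φ y - (ψ y).toReal| ≤ 1 / (n + 1) := by
    intro n
    obtain ⟨U, hU, hU', cU⟩ := local_compact_nhds (h (1 / (n + 1)) (by positivity))
    have mU := cU.measurableSet
    have f1 : μ U ≠ ∞ := cU.measure_lt_top.ne
    have f0 : μ U ≠ 0 := (Measure.measure_pos_of_mem_nhds μ hU).ne'
    have r0 : 0 < μ.real U := ENNReal.toReal_pos f0 f1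
    have : IsFiniteMeasure (μ.restrict U) := isFiniteMeasure_restrict.2 f1
    refine ⟨fun y => (av μ U ψ y).toReal / μ.real U, Continuous.div_const
      (continuous_iff_continuousAt.2 fun y => (ENNReal.tendsto_toReal ?_).comp
        (cont_av mU f1 hC' hC).continuousAt) _, ?_⟩
    · exact ne_top_of_le_ne_top (ENNReal.mul_ne_top hC' f1)
        ((lintegral_mono fun g => hC _).trans (by rw [setLIntegral_const]))
    have m1 : Measurable fun p : G × Y => (ψ (p.1 • p.2)).toReal :=
      (hψ.comp (continuous_smul (M := G) (X := Y)).measurable).ennreal_toReal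
    have h1 : ∀ᵐ g ∂μ.restrict U, ∀ᵐ y ∂ν, |(ψ (g • y)).toReal - (ψ y).toReal| ≤ 1 / (n + 1) :=
      (ae_restrict_mem mU).mono fun g hg => hU' hg
    filter_upwards [(Measure.ae_ae_comm (p := fun (g : G) (y : Y) =>
      |(ψ (g • y)).toReal - (ψ y).toReal| ≤ 1 / (n + 1)) (measurableSet_le
      (m1.sub (hψ.comp measurable_snd).ennreal_toReal).abs measurable_const)).1 h1] with y hy
    have m2 : Measurable fun g : G => ψ (g • y) := hψ.comp (by fun_prop : Continuous _).measurable
    have i1 : Integrable (fun g : G => (ψ (g • y)).toReal) (μ.restrict U) :=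
      .of_bound m2.ennreal_toReal.aestronglyMeasurable C.toReal (Eventually.of_forall fun g => by
        rw [Real.norm_of_nonneg ENNReal.toReal_nonneg]; exact ENNReal.toReal_mono hC' (hC _))
    have h2 := norm_integral_le_of_norm_le_const
      (f := fun g : G => (ψ (g • y)).toReal - (ψ y).toReal) (C := 1 / (n + 1)) hy
    rw [integral_sub i1 (integrable_const _), integral_const, integral_toReal m2.aemeasurable
      (Eventually.of_forall fun g => (fin _).lt_top), measureReal_restrict_apply_univ,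
      Real.norm_eq_abs, smul_eq_mul] at h2
    rw [div_sub' r0.ne', abs_div, abs_of_pos r0, div_le_iff₀ r0]
    exact h2
  choose F cF hF using key
  have h1 : ∀ n m y, dist (F n y) (F m y) ≤ 1 / (n + 1) + 1 / (m + 1) := fun n m => by
    have hc : IsClosed {y | dist (F n y) (F m y) ≤ 1 / (n + 1) + 1 / (m + 1)} :=
      isClosed_le ((cF n).dist (cF m)) continuous_const
    refine eq_univ_iff_forall.1 (hc.closure_eq.symm.trans (Measure.dense_of_ae (μ := ν)
      (p := fun y => dist (F n y) (F m y) ≤ 1 / (n + 1) + 1 / (m + 1)) ?_).closure_eq)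
    filter_upwards [hF n, hF m] with y a b
    rw [Real.dist_eq]
    exact (abs_sub_le _ _ _).trans (add_le_add a (by rwa [abs_sub_comm]))
  have t0 := tendsto_one_div_add_atTop_nhds_zero_nat (𝕜 := ℝ)
  have h2 : ∀ y, ∃ z, Tendsto (fun n => F n y) atTop (𝓝 z) := fun y =>
    cauchySeq_tendsto_of_complete (cauchySeq_of_le_tendsto_0 (fun N : ℕ => 1 / (N + 1) + 1 / (N + 1))
      (fun n m N hn hm => (h1 n m y).trans (add_le_add (Nat.one_div_le_one_div hn)
        (Nat.one_div_le_one_div hm))) (by simpa using t0.add t0))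
  choose φ hφ using h2
  have h3 : ∀ n y, dist (F n y) (φ y) ≤ 1 / (n + 1) := fun n y =>
    le_of_tendsto_of_tendsto' (tendsto_const_nhds.dist (hφ y))
      (by simpa using (tendsto_const_nhds (x := 1 / ((n : ℝ) + 1))).add t0) fun m => h1 n m y
  refine ⟨φ, TendstoUniformly.continuous (F := F) (p := atTop)
    (Metric.tendstoUniformly_iff.2 fun ε hε => ?_) (Frequently.of_forall cF), ?_⟩
  · filter_upwards [t0.eventually (gt_mem_nhds hε)] with n hn y
    rw [dist_comm]
    exact (h3 n y).trans_lt hn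
  · filter_upwards [ae_all_iff.2 hF] with y hy
    refine tendsto_nhds_unique (hφ y) (tendsto_iff_dist_tendsto_zero.2 ?_)
    exact squeeze_zero (fun _ => dist_nonneg) hy t0

end Vale.Agent.P092MA
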