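import Vale.Agent.P092MA.Quad
import Vale.Agent.P092MA.Hom

/-!
P092 (helper19): invariant quadratic forms in a coupling, the mean ergodic lower bound.
-/

set_option linter.all false

open scoped InnerProductSpace ENNReal NNReal ComplexConjugate
open MeasureTheory Filter Topology ContinuousLinearMap Set

namespace Vale.Agent.P092MA

open Vale.Agent.P092CP
open Vale.Agent.P092.RC (Cm)
open Vale.Agent.P092.H466 (polar ext_quad)

variable {G G' K : Type} [Group G] [TopologicalSpace G] [IsTopologicalGroup G]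
  [LocallyCompactSpace G] [SecondCountableTopology G] [T2Space G] [MeasurableSpace G] [BorelSpace G]
  [Group G'] [TopologicalSpace G'] [IsTopologicalGroup G'] [LocallyCompactSpace G']
  [SecondCountableTopology G'] [T2Space G'] [MeasurableSpace G'] [BorelSpace G']
  [NormedAddCommGroup K] [InnerProductSpace ℂ K] [CompleteSpace K] {μ : Measure G}
  [μ.IsHaarMeasure] {μ' : Measure G'} [μ'.IsHaarMeasure] {W : Set (K →L[ℂ] K)}

theorem inner_self_C (x : K) : ⟪x, x⟫_ℂ = ((‖x‖ ^ 2 : ℝ) : ℂ) := by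
  rw [inner_self_eq_norm_sq_to_K, Complex.ofReal_pow]; rfl

theorem uni (S : Side μ W) (g : G) : S.π g ∈ unitary (K →L[ℂ] K) :=
  ⟨by rw [S.star_π, pi_inv_mul], by rw [S.star_π, pi_mul_inv]⟩

theorem my_uni {q : K → ℝ≥0∞} {u : K →L[ℂ] K} (hu : u ∈ unitary (K →L[ℂ] K))
    (hq : ∀ x, q (u x) = q x) (n : ℕ) (η : K) : my q n (u η) = my q n η :=
  QE.my_inv (u := u) (v := (star u : K →L[ℂ] K)) (fun x => ap_eq hu.2 x) (fun x y => by
    rw [← map_sub, ← ofReal_norm, u.norm_map_of_mem_unitary hu, ofReal_norm]) hq n η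

theorem comm_of_quad {T u : K →L[ℂ] K} (hu : u ∈ unitary (K →L[ℂ] K))
    (h : ∀ x, ⟪u x, T (u x)⟫_ℂ = ⟪x, T x⟫_ℂ) : T * u = u * T := by
  have e : star u * T * u = T := ext_quad fun x => by
    rw [← h x, mul_ap, mul_ap, star_eq_adjoint, adjoint_inner_right]
  conv_rhs => rw [← e, ← mul_assoc, ← mul_assoc, hu.2, one_mul]

theorem exists_sqrt {T : K →L[ℂ] K} {Q : K → ℝ} (h0 : ∀ x, 0 ≤ Q x)
    (hT : ∀ x, ⟪x, T x⟫_ℂ = (Q x : ℂ)) : ∀ x, ‖cfc Real.sqrt T x‖ ^ 2 = Q x := fun x => by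
  have h1 : 0 ≤ T := (nonneg_iff_isPositive T).2 ((isPositive_iff_complex T).2 fun y => by
    rw [← inner_conj_symm, hT, Complex.conj_ofReal]; simp [h0])
  have h2 : cfc Real.sqrt T * cfc Real.sqrt T = T := by
    rw [← cfc_mul _ _ T]
    exact (cfc_congr fun t ht => Real.mul_self_sqrt (spectrum_nonneg_of_nonneg h1 ht)).trans
      (cfc_id' ℝ T)
  have h3 : adjoint (cfc Real.sqrt T) = cfc Real.sqrt T := (cfc_predicate Real.sqrt T).star_eq
  have h4 := hT x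
  rw [← h2, mul_ap, ← adjoint_inner_left, h3, inner_self_C] at h4
  exact Complex.ofReal_injective h4

/-- a form affiliated with the finite algebra of the source side -/
structure Aff (C : Cpl μ μ' W) (q : K → ℝ≥0∞) : Prop where
  qe : QE q
  invW : ∀ u ∈ unitary (K →L[ℂ] K), (∀ x, Cm W x → x * u = u * x) → ∀ ξ, q (u ξ) = q ξ
  invs : ∀ g ξ, q (C.s.π g ξ) = q ξ

/-- `b` acts ergodically on the finite algebra of the source side -/
def ErgB (C : Cpl μ μ' W) (b : G') : Prop :=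
  ∀ x, C.s.M x → x * C.t.π b = C.t.π b * x → ∃ z : ℂ, x = z • (1 : K →L[ℂ] K)

variable {C : Cpl μ μ' W} {q : K → ℝ≥0∞}

theorem Aff.op (h : Aff C q) (n : ℕ) :
    ∃ T, C.s.M T ∧ ∀ x, ⟪x, T x⟫_ℂ = ((my q n x).toReal : ℂ) := by
  obtain ⟨T, hT⟩ := h.qe.exists_op n
  refine ⟨T, ⟨cm_of_unitary C.Wadj fun u hu e => comm_of_quad hu fun x => ?_,
    fun g => comm_of_quad (uni C.s g) fun x => ?_⟩, hT⟩
  · rw [hT, hT, my_uni hu (h.invW u hu e)]
  · rw [hT, hT, my_uni (uni C.s g) (h.invs g)]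

theorem Aff.my_eq (h : Aff C q) {n : ℕ} {x y : K}
    (e : ((my q n x).toReal : ℂ) = (my q n y).toReal) : my q n x = my q n y :=
  (ENNReal.toReal_eq_toReal_iff' (h.qe.my_ne _ _) (h.qe.my_ne _ _)).1 (by exact_mod_cast e)

theorem Aff.t_Ω (h : Aff C q) (g : G') : q (C.t.π g C.s.Ω) = q C.s.Ω := by
  have e : ∀ n, my q n (C.t.π g C.s.Ω) = my q n C.s.Ω := fun n => by
    obtain ⟨T, hM, hT⟩ := h.op n
    refine h.my_eq ?_
    have := C.swap.τ_σ hM g⁻¹
    rw [← hT, ← hT, ← adjoint_inner_right, C.t.adj]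
    rw [inv_inv] at this
    exact this
  exact le_antisymm (h.qe.le_of_my fun n => (e n).le.trans (QE.my_le _ _))
    (h.qe.le_of_my fun n => (e n).ge.trans (QE.my_le _ _))

theorem Aff.M_Ω (h : Aff C q) {x : K →L[ℂ] K} (hx : C.s.M x) :
    q (x C.s.Ω) ≤ ‖x‖ₑ ^ 2 * q C.s.Ω := h.qe.le_of_my fun n => by
  obtain ⟨T, hM, hT⟩ := h.op n
  have e := exists_sqrt (fun _ => ENNReal.toReal_nonneg) hT
  have h1 := C.swap.norm_mul_Ω (hM.cfcR Real.sqrt) hx
  refine le_trans ?_ (mul_le_mul_right (QE.my_le n _) _)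
  rw [← ENNReal.toReal_le_toReal (h.qe.my_ne _ _)
    (ENNReal.mul_ne_top (ENNReal.pow_ne_top enorm_ne_top) (h.qe.my_ne _ _)), ENNReal.toReal_mul,
    ← e, ← e, ENNReal.toReal_pow, toReal_enorm, ← mul_pow]
  exact pow_le_pow_left₀ (norm_nonneg _) h1 2

/-- the mean ergodic theorem in the weak topology -/
theorem ces {b : G'} (hb : ErgB C b) {x : K →L[ℂ] K} (hx : C.s.M x) (ξ : K) :
    Tendsto (fun N : ℕ => ((N + 1 : ℕ) : ℂ)⁻¹ * ∑ n ∈ Finset.range (N + 1),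
      ⟪C.t.π (b ^ n)⁻¹ ξ, x (C.t.π (b ^ n)⁻¹ ξ)⟫_ℂ) atTop (𝓝 (C.s.τ x * ⟪ξ, ξ⟫_ℂ)) := by
  let c : ℕ → K →L[ℂ] K := fun n => C.t.π (b ^ n) * x * C.t.π (b ^ n)⁻¹
  let A : ℕ → K →L[ℂ] K := fun N => ((N + 1 : ℕ) : ℂ)⁻¹ • ∑ n ∈ Finset.range (N + 1), c n
  have cM : ∀ n, C.s.M (c n) := fun n => C.swap.M_σ hx _
  have nc : ∀ n, ‖c n‖ ≤ ‖x‖ := fun n => C.t.norm_conj_le _ _
  have n0 : ∀ N : ℕ, ((N + 1 : ℕ) : ℂ) ≠ 0 := fun N => Nat.cast_ne_zero.2 N.succ_ne_zero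
  have nA : ∀ N, ‖A N‖ ≤ ‖x‖ := fun N => by
    have := (norm_sum_le _ _).trans (Finset.sum_le_card_nsmul (Finset.range (N + 1)) _ _
      fun n _ => nc n)
    rw [Finset.card_range, nsmul_eq_mul] at this
    rw [norm_smul, norm_inv, Complex.norm_natCast, inv_mul_le_iff₀ (by positivity)]
    exact this
  have e1 : ∀ N, ⟪ξ, A N ξ⟫_ℂ = ((N + 1 : ℕ) : ℂ)⁻¹ * ∑ n ∈ Finset.range (N + 1),
      ⟪C.t.π (b ^ n)⁻¹ ξ, x (C.t.π (b ^ n)⁻¹ ξ)⟫_ℂ := fun N => by
    rw [smul_apply, inner_smul_right, sum_apply, inner_sum]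
    congr 1
    refine Finset.sum_congr rfl fun n _ => ?_
    rw [mul_ap, mul_ap, ← adjoint_inner_left, C.t.adj]
  have e2 : ∀ N, C.s.τ (A N) = C.s.τ x := fun N => by
    have e0 : ∀ n, ⟪C.s.Ω, c n C.s.Ω⟫_ℂ = C.s.τ x := fun n => C.swap.τ_σ hx (b ^ n)
    rw [Side.τ_smul, Side.τ, sum_apply, inner_sum, Finset.sum_congr rfl fun n _ => e0 n,
      Finset.sum_const, Finset.card_range, nsmul_eq_mul, inv_mul_cancel_left₀ (n0 N)]
  have e3 : ∀ N, C.t.π b * A N * C.t.π b⁻¹ - A N = ((N + 1 : ℕ) : ℂ)⁻¹ • (c (N + 1) - c 0) :=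
    fun N => by
      rw [mul_smul_comm, smul_mul_assoc, ← smul_sub, Finset.mul_sum, Finset.sum_mul,
        ← Finset.sum_sub_distrib, ← Finset.sum_range_sub c]
      congr 1
      refine Finset.sum_congr rfl fun n _ => ?_
      rw [C.t.conj_conj, ← pow_succ']
  simp only [← e1]
  refine (tendsto_iff_ultrafilter _ _ _).2 fun U hU => ?_
  obtain ⟨S, -, hS⟩ := P092.H325.exists_ulim U A _ nA
  have SM : C.s.M S := Side.M.of_weak (Eventually.of_forall fun N =>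
    (Side.M.sum _ fun n _ => cM n).smul _) fun ξ η => hS η ξ
  have e4 : C.t.π b * S * C.t.π b⁻¹ = S := ext_quad fun η => by
    have t1 := (hS (C.t.π b⁻¹ η) (C.t.π b⁻¹ η)).sub (hS η η)
    have t2 : Tendsto (fun N : ℕ => ⟪η, (((N + 1 : ℕ) : ℂ)⁻¹ • (c (N + 1) - c 0)) η⟫_ℂ) U (𝓝 0) := by
      refine Tendsto.mono_left (squeeze_zero_norm (fun N => ?_) (?_ : Tendsto
        (fun N : ℕ => ((N + 1 : ℕ) : ℝ)⁻¹ * (‖η‖ * ((‖x‖ + ‖x‖) * ‖η‖))) atTop (𝓝 0))) hU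
      · rw [smul_apply, inner_smul_right, norm_mul, norm_inv, Complex.norm_natCast]
        gcongr
        refine (norm_inner_le_norm _ _).trans ?_
        gcongr
        exact le_of_opNorm_le _ ((norm_sub_le _ _).trans (add_le_add (nc _) (nc _))) _
      · simpa using ((tendsto_inv_atTop_nhds_zero_nat (𝕜 := ℝ)).comp
          (tendsto_add_atTop_nat 1)).mul_const (‖η‖ * ((‖x‖ + ‖x‖) * ‖η‖))
    rw [mul_ap, mul_ap, ← adjoint_inner_left, C.t.adj, ← sub_eq_zero]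
    refine tendsto_nhds_unique t1 (t2.congr fun N => ?_)
    rw [← e3, sub_apply, inner_sub_right, mul_ap, mul_ap, ← adjoint_inner_left (C.t.π b), C.t.adj]
  obtain ⟨z, rfl⟩ := hb S SM (by
    conv_lhs => rw [← e4, mul_assoc, pi_inv_mul, mul_one])
  have e5 : z = C.s.τ x := by
    have := hS C.s.Ω C.s.Ω
    rw [show (fun N => ⟪C.s.Ω, A N C.s.Ω⟫_ℂ) = fun _ => C.s.τ x from funext e2] at this
    rw [← tendsto_nhds_unique this tendsto_const_nhds]
    exact ((C.s.τ_smul z 1).trans (by rw [Side.τ_one, mul_one])).symm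
  simpa [e5, inner_smul_right] using hS ξ ξ

/-- **the ergodic lower bound** -/
theorem Aff.erg (h : Aff C q) {b : G'} (hb : ErgB C b) {E : Set G'} (hE : μ' E ≠ ∞) (ξ : K)
    {X : ℝ≥0∞} (hX : ∀ n : ℕ, ∫⁻ g in E, q (C.t.π (b ^ n)⁻¹ (C.t.π g⁻¹ ξ)) ∂μ' ≤ X) :
    q C.s.Ω * (‖ξ‖ₑ ^ 2 * μ' E) ≤ X := by
  rcases eq_or_ne (‖ξ‖ₑ ^ 2 * μ' E) 0 with h0 | h0
  · simp [h0]
  refine (ENNReal.le_div_iff_mul_le (Or.inl h0) (Or.inl (ENNReal.mul_ne_top
    (ENNReal.pow_ne_top enorm_ne_top) hE))).1 (h.qe.le_of_my fun k => (ENNReal.le_div_iff_mul_le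
      (Or.inl h0) (Or.inl (ENNReal.mul_ne_top (ENNReal.pow_ne_top enorm_ne_top) hE))).2 ?_)
  obtain ⟨T, hM, hT⟩ := h.op k
  let F : ℕ → G' → ℝ≥0∞ := fun n g => my q k (C.t.π (b ^ n)⁻¹ (C.t.π g⁻¹ ξ))
  have eF : ∀ η, my q k η = ENNReal.ofReal (⟪η, T η⟫_ℂ).re := fun η => by
    rw [hT, Complex.ofReal_re, ENNReal.ofReal_toReal (h.qe.my_ne _ _)]
  have mF : ∀ n, Measurable (F n) := fun n => by
    have c1 : Continuous fun g => C.t.π (b ^ n)⁻¹ (C.t.π g⁻¹ ξ) :=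
      (C.t.π _).continuous.comp ((C.t.cont ξ).comp continuous_inv)
    simp only [F, eF]
    exact (Complex.continuous_re.comp (c1.inner (T.continuous.comp c1))).measurable.ennreal_ofReal
  let A : ℕ → G' → ℝ≥0∞ := fun N g => ((N + 1 : ℕ) : ℝ≥0∞)⁻¹ * ∑ n ∈ Finset.range (N + 1), F n g
  have mA : ∀ N, Measurable (A N) := fun N =>
    (Finset.measurable_fun_sum _ fun n _ => mF n).const_mul _
  have tA : ∀ g, Tendsto (fun N => A N g) atTop (𝓝 (my q k C.s.Ω * ‖ξ‖ₑ ^ 2)) := fun g => by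
    have t := ENNReal.tendsto_ofReal
      ((Complex.continuous_re.tendsto _).comp (ces hb hM (C.t.π g⁻¹ ξ)))
    rw [Side.τ, hT, inner_self_C, C.t.norm_π, ← Complex.ofReal_mul, Complex.ofReal_re,
      ENNReal.ofReal_mul ENNReal.toReal_nonneg, ENNReal.ofReal_toReal (h.qe.my_ne _ _),
      ENNReal.ofReal_pow (norm_nonneg _), ofReal_norm] at t
    refine t.congr fun N => ?_
    simp only [Function.comp, hT]
    rw [← Complex.ofReal_sum, ← Complex.ofReal_natCast, ← Complex.ofReal_inv,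
      ← Complex.ofReal_mul, Complex.ofReal_re, ENNReal.ofReal_mul (by positivity),
      ENNReal.ofReal_inv_of_pos (by positivity), ENNReal.ofReal_natCast,
      ENNReal.ofReal_sum_of_nonneg fun _ _ => ENNReal.toReal_nonneg]
    simp only [ENNReal.ofReal_toReal (h.qe.my_ne _ _)]
    rfl
  calc _ = ∫⁻ g in E, liminf (fun N => A N g) atTop ∂μ' := by
        simp only [fun g => (tA g).liminf_eq, setLIntegral_const, mul_assoc]
    _ ≤ liminf (fun N => ∫⁻ g in E, A N g ∂μ') atTop := lintegral_liminf_le mA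
    _ ≤ X := liminf_le_of_frequently_le' (Frequently.of_forall fun N => ?_)
  rw [lintegral_const_mul _ (Finset.measurable_fun_sum _ fun n _ => mF n),
    lintegral_finsetSum _ fun n _ => mF n]
  refine (mul_le_mul_right (Finset.sum_le_card_nsmul _ _ X fun n _ =>
    (lintegral_mono fun g => QE.my_le _ _).trans (hX n)) _).trans (le_of_eq ?_)
  rw [Finset.card_range, nsmul_eq_mul, ← mul_assoc, ENNReal.inv_mul_cancel (by simp) (by simp),
    one_mul]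

/-- **a form which is minimal at the trace vector is scalar** -/
theorem Aff.scalar (h : Aff C q) (fin : q C.s.Ω ≠ ∞)
    (low : ∀ x, C.s.M x → q C.s.Ω * ‖x C.s.Ω‖ₑ ^ 2 ≤ q (x C.s.Ω)) (η : K) :
    q η = ‖η‖ₑ ^ 2 * q C.s.Ω := by
  obtain ⟨c, hc⟩ : ∃ c : ℝ≥0, (c : ℝ≥0∞) = q C.s.Ω := ⟨_, ENNReal.coe_toNNReal fin⟩
  have c0 : (0 : ℝ) ≤ c := c.2
  have key : ∀ n : ℕ, n ≠ 0 → my q n η = ‖η‖ₑ ^ 2 * ENNReal.ofReal (n * c / (n + c)) := by
    intro n hn
    have n0 : (0 : ℝ) < n := by positivity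
    obtain ⟨T, hM, hT⟩ := h.op n
    have h1 := h.qe.my_min hn hT C.s.Ω
    set w := ((n : ℂ)⁻¹) • T C.s.Ω with hw
    have h2 : q C.s.Ω * ‖C.s.Ω - w‖ₑ ^ 2 ≤ q (C.s.Ω - w) :=
      low _ (C.s.M_one.sub (hM.smul (n : ℂ)⁻¹))
    set t : ℝ := c / (n + c) with ht
    have t0 : 0 ≤ t := by positivity
    have t1 : 0 ≤ 1 - t := by rw [sub_nonneg, ht, div_le_one (by positivity)]; linarith
    have h3 : my q n C.s.Ω ≤ n * ‖C.s.Ω - ((1 - t : ℝ) : ℂ) • C.s.Ω‖ₑ ^ 2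
        + q (((1 - t : ℝ) : ℂ) • C.s.Ω) := iInf_le _ _
    have h4 := (add_le_add le_rfl h2).trans (h1.trans h3)
    have e1 : C.s.Ω - ((1 - t : ℝ) : ℂ) • C.s.Ω = (t : ℂ) • C.s.Ω := by
      push_cast; rw [sub_smul, one_smul, sub_sub_cancel]
    rw [e1, h.qe.hom, ← hc, enorm_smul (t : ℂ), C.s.enorm_Ω, mul_one] at h4
    have h5 : n * ‖w‖ ^ 2 + c * ‖C.s.Ω - w‖ ^ 2 ≤ n * t ^ 2 + (1 - t) ^ 2 * c := by
      have := ENNReal.toReal_mono (by finiteness) h4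
      rw [ENNReal.toReal_add (by finiteness) (by finiteness),
        ENNReal.toReal_add (by finiteness) (by finiteness)] at this
      simp only [ENNReal.toReal_mul, ENNReal.toReal_pow, toReal_enorm, ENNReal.toReal_natCast,
        ENNReal.coe_toReal, Complex.norm_real, Real.norm_of_nonneg t0, Real.norm_of_nonneg t1]
        at this
      exact this
    have h6 : w = (t : ℂ) • C.s.Ω := by
      have e2 := @norm_sub_sq ℂ _ _ _ _ C.s.Ω w
      have e3 := @norm_sub_sq ℂ _ _ _ _ ((t : ℂ) • C.s.Ω) w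
      rw [inner_smul_left, Complex.conj_ofReal, norm_smul, Complex.norm_real,
        Real.norm_of_nonneg t0, C.s.nΩ] at e3
      rw [C.s.nΩ] at e2
      have e4 : RCLike.re ((t : ℂ) * ⟪C.s.Ω, w⟫_ℂ) = t * RCLike.re ⟪C.s.Ω, w⟫_ℂ := by simp
      have e5 : t * (n + c) = c := div_mul_cancel₀ _ (by positivity)
      have e6 : (n + c) * ‖(t : ℂ) • C.s.Ω - w‖ ^ 2 ≤ 0 := by
        rw [e3, e4]; rw [e2] at h5
        have e7 : (n + c) * (2 * (t * RCLike.re ⟪C.s.Ω, w⟫_ℂ)) = 2 * c * RCLike.re ⟪C.s.Ω, w⟫_ℂ := by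
          linear_combination (2 * RCLike.re ⟪C.s.Ω, w⟫_ℂ) * e5
        nlinarith
      have e8 : ‖(t : ℂ) • C.s.Ω - w‖ ^ 2 = 0 :=
        le_antisymm (nonpos_of_mul_nonpos_right e6 (by positivity)) (sq_nonneg _)
      exact (sub_eq_zero.1 (by simpa using e8)).symm
    have h7 : T = ((n * t : ℝ) : ℂ) • (1 : K →L[ℂ] K) :=
      C.swap.eq_of_Ω hM (C.s.M_one.smul _) (by
        show T C.s.Ω = ((n * t : ℝ) : ℂ) • C.s.Ω
        rw [Complex.ofReal_mul, mul_smul, ← h6, hw, smul_smul, Complex.ofReal_natCast,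
          mul_inv_cancel₀ (by exact_mod_cast hn), one_smul])
    have h8 := hT η
    rw [h7, smul_apply, inner_smul_right, P092RD.oapp, inner_self_C, ← Complex.ofReal_mul,
      Complex.ofReal_inj] at h8
    rw [← ENNReal.ofReal_toReal (h.qe.my_ne n η), ← h8, ENNReal.ofReal_mul (by positivity),
      ENNReal.ofReal_pow (norm_nonneg _), ofReal_norm, mul_comm, mul_div_assoc]
  rw [← hc]
  refine le_antisymm (h.qe.le_of_my fun n => ?_) ?_
  · rcases eq_or_ne n 0 with rfl | hn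
    · exact (h.qe.my_le' 0 η).trans (by simp)
    rw [key n hn, ← ENNReal.ofReal_coe_nnreal]
    gcongr
    rw [div_le_iff₀ (by positivity)]
    nlinarith
  · have t := ENNReal.Tendsto.const_mul (a := ‖η‖ₑ ^ 2) (ENNReal.tendsto_ofReal
      ((tendsto_natCast_div_add_atTop (c : ℝ)).mul_const (c : ℝ))) (Or.inr (by finiteness))
    rw [one_mul, ENNReal.ofReal_coe_nnreal] at t
    refine le_of_tendsto t ((eventually_ne_atTop 0).mono fun n hn => ?_)
    rw [div_mul_eq_mul_div, ← key n hn]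
    exact QE.my_le _ _

end Vale.Agent.P092MA
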