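import Vale.Agent.P092MA.D5
import Vale.Agent.P092RD.Mag

/-!
P092 (helper19): covariant families of operator valued measures and their integrals.
-/

set_option linter.all false

open scoped InnerProductSpace ENNReal NNReal ComplexConjugate Pointwise
open MeasureTheory Filter Topology ContinuousLinearMap Set

namespace Vale.Agent.P092MA

open Vale.Agent.P092CP Vale.Agent.P092RD
open Vale.Agent.P092.RC (Cm)
open Vale.Agent.P092.H466 (polar ext_quad)

section pom

variable {Y K : Type} [MeasurableSpace Y] [NormedAddCommGroup K] [InnerProductSpace ℂ K]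
  {θ θ' : POM Y K} {A : Set Y}

theorem nu_ne (θ : POM Y K) (ξ : K) (A : Set Y) : θ.ν ξ A ≠ ∞ :=
  ne_top_of_le_ne_top (ENNReal.pow_ne_top enorm_ne_top)
    ((measure_mono (subset_univ A)).trans (θ.fin ξ))

theorem nu_eq (θ : POM Y K) (hA : MeasurableSet A) (ξ : K) :
    θ.ν ξ A = ENNReal.ofReal (⟪ξ, θ.P A ξ⟫_ℂ).re := by
  rw [θ.inner_P hA, Complex.ofReal_re, ofReal_measureReal (nu_ne θ ξ A)]

theorem cont_nu (θ : POM Y K) (hA : MeasurableSet A) : Continuous fun ξ => θ.ν ξ A := by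
  simp only [nu_eq θ hA]
  exact ENNReal.continuous_ofReal.comp
    (Complex.continuous_re.comp (continuous_id.inner (θ.P A).continuous))

theorem qe_nu (θ : POM Y K) (hA : MeasurableSet A) : QE fun ξ => θ.ν ξ A where
  par x y := by
    have h : (θ.ν (x + y)).real A + (θ.ν (x - y)).real A
        = 2 * (θ.ν x).real A + 2 * (θ.ν y).real A := by
      apply Complex.ofReal_injective
      push_cast
      simp only [← θ.inner_P hA, map_add, map_sub, inner_add_left, inner_add_right, inner_sub_left,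
        inner_sub_right]
      ring
    have f := fun ξ => nu_ne θ ξ A
    rw [← ENNReal.toReal_eq_toReal_iff' (by finiteness) (by finiteness),
      ENNReal.toReal_add (f _) (f _), ENNReal.toReal_add (by finiteness) (by finiteness)]
    simpa [Measure.real] using h
  hom c x := by
    have h : (θ.ν (c • x)).real A = ‖c‖ ^ 2 * (θ.ν x).real A := by
      apply Complex.ofReal_injective
      push_cast
      rw [← θ.inner_P hA, ← θ.inner_P hA, map_smul, inner_smul_left, inner_smul_right, ← mul_assoc,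
        Complex.conj_mul']
    have f := fun ξ => nu_ne θ ξ A
    rw [← ENNReal.toReal_eq_toReal_iff' (f _) (by finiteness)]
    simpa [Measure.real] using h
  lsc u x h := (((cont_nu θ hA).tendsto x).comp h).liminf_eq.ge

theorem f_ext (h : ∀ ξ A, MeasurableSet A → θ.ν ξ A = θ'.ν ξ A) {f : Y → ℂ} (hf : Bd f) :
    θ.f f = θ'.f f := ext_quad fun ξ => by
  rw [θ.rep _ hf, θ'.rep _ hf, Measure.ext (h ξ)]

theorem nu_conj [CompleteSpace K] {Y' : Type} [MeasurableSpace Y'] {θ' : POM Y' K} {B : Set Y'}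
    (hA : MeasurableSet A) (hB : MeasurableSet B) {u v : K →L[ℂ] K} (h : star u = v)
    (e : θ'.P B = u * θ.P A * v) (ξ : K) : θ'.ν ξ B = θ.ν (v ξ) A := by
  rw [nu_eq θ' hB, nu_eq θ hA, e, mapp, mapp, ← adjoint_inner_left, ← star_eq_adjoint, h]

theorem P_ap_eq_zero (θ : POM Y K) (hA : MeasurableSet A) {ξ : K} (h : θ.ν ξ A = 0) :
    θ.P A ξ = 0 := by
  have := θ.norm_sq_le (bd_ind1 hA) ξ
  rw [integral_eq_zero_of_ae] at this
  · exact norm_eq_zero.1 (pow_eq_zero_iff two_ne_zero |>.1 (le_antisymm this (sq_nonneg _)))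
  · filter_upwards [measure_eq_zero_iff_ae_notMem.1 h] with z hz
    simp [hz]

end pom

variable {G G' K : Type} [Group G] [TopologicalSpace G] [IsTopologicalGroup G]
  [LocallyCompactSpace G] [SecondCountableTopology G] [T2Space G] [MeasurableSpace G] [BorelSpace G]
  [Group G'] [TopologicalSpace G'] [IsTopologicalGroup G'] [LocallyCompactSpace G']
  [SecondCountableTopology G'] [T2Space G'] [MeasurableSpace G'] [BorelSpace G']
  [NormedAddCommGroup K] [InnerProductSpace ℂ K] [CompleteSpace K] {μ : Measure G}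
  [μ.IsHaarMeasure] {μ' : Measure G'} [μ'.IsHaarMeasure] {W : Set (K →L[ℂ] K)}
  {Z : Type} [TopologicalSpace Z] [T2Space Z] [LocallyCompactSpace Z] [SecondCountableTopology Z]
  [MeasurableSpace Z] [BorelSpace Z] [MulAction G Z] [ContinuousSMul G Z]
  [MulAction.IsPretransitive G Z]
  {Y : Type} [TopologicalSpace Y] [T2Space Y] [LocallyCompactSpace Y] [SecondCountableTopology Y]
  [MeasurableSpace Y] [BorelSpace Y] [MulAction G' Y] [ContinuousSMul G' Y]
  [MulAction.IsPretransitive G' Y]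

/-- a covariant family of operator valued measures on `Y` indexed by `Z` -/
structure Fam (C : Cpl μ μ' W) (θ : Z → POM Y K) : Prop where
  cm : ∀ z f, Bd f → Cm W ((θ z).f f)
  mov : ∀ g z f, Bd f → (θ (g • z)).f f = C.s.π g * (θ z).f f * C.s.π g⁻¹
  cov : ∀ z, Cov C.t.π (θ z)

/-- a family from a base point -/
theorem exists_fam (C : Cpl μ μ' W) (z₀ : Z) {θ₀ : POM Y K} (cm : ∀ f, Bd f → Cm W (θ₀.f f))
    (cov : Cov C.t.π θ₀)
    (fix : ∀ g, g • z₀ = z₀ → ∀ f, Bd f → C.s.π g * θ₀.f f * C.s.π g⁻¹ = θ₀.f f) :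
    ∃ θ : Z → POM Y K, Fam C θ ∧ (θ₀.IsP → ∀ z, (θ z).IsP) ∧
      ∀ g f, Bd f → (θ (g • z₀)).f f = C.s.π g * θ₀.f f * C.s.π g⁻¹ := by
  choose s hs using fun z => MulAction.exists_smul_eq G z₀ z
  have key : ∀ g f, Bd f → C.s.π (s (g • z₀)) * θ₀.f f * C.s.π (s (g • z₀))⁻¹
      = C.s.π g * θ₀.f f * C.s.π g⁻¹ := fun g f hf => by
    conv_rhs => rw [← fix (g⁻¹ * s (g • z₀)) (by rw [mul_smul, hs, inv_smul_smul]) f hf,
      C.s.conj_conj, mul_inv_cancel_left]
  refine ⟨fun z => θ₀.cj (C.s.π (s z)) (C.s.π (s z)⁻¹) (C.s.star_π _) (pi_mul_inv _),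
    ⟨fun z f hf => C.s.conj _ (cm f hf) _, fun g z f hf => ?_, fun z h f hf => ?_⟩,
    fun h z => h.cj _ _ (pi_inv_mul _), key⟩
  · rw [POM.cj_f, POM.cj_f, C.s.conj_conj, ← key (g * s z) f hf, mul_smul, hs]
  · rw [POM.cj_f, POM.cj_f, ← conj_comm, cov h f hf]

/-- the integral of the family -/
noncomputable def mm (ν : Measure Z) (θ : Z → POM Y K) (ξ : K) : Measure Y :=
  ν.bind fun z => (θ z).ν ξ

variable {C : Cpl μ μ' W} {θ : Z → POM Y K} {ν : Measure Z} {S : Set Y}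

namespace Fam

variable (h : Fam C θ)

include h

theorem P_mov (hS : MeasurableSet S) (g : G) (z : Z) :
    (θ (g • z)).P S = C.s.π g * (θ z).P S * C.s.π g⁻¹ := h.mov g z _ (bd_ind1 hS)

theorem cm_P (hS : MeasurableSet S) (z : Z) : Cm W ((θ z).P S) := h.cm z _ (bd_ind1 hS)

theorem nu_mov (hS : MeasurableSet S) (g : G) (z : Z) (ξ : K) :
    (θ (g • z)).ν ξ S = (θ z).ν (C.s.π g⁻¹ ξ) S :=
  nu_conj hS hS (C.s.star_π g) (h.P_mov hS g z) ξ

theorem cont (hS : MeasurableSet S) (ξ : K) : Continuous fun z => (θ z).ν ξ S :=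
  continuous_iff_continuousAt.2 fun z => (cont_of_orb (G := G) z (by
    simp only [h.nu_mov hS]
    exact (cont_nu _ hS).comp ((C.s.cont ξ).comp continuous_inv))).continuousAt

theorem mm_apply (ν : Measure Z) (hS : MeasurableSet S) (ξ : K) :
    mm ν θ ξ S = ∫⁻ z, (θ z).ν ξ S ∂ν :=
  Measure.bind_apply hS (Measure.measurable_of_measurable_coe _
    fun _ hA => (h.cont hA ξ).measurable).aemeasurable

theorem qe (ν : Measure Z) (hS : MeasurableSet S) : QE fun ξ => mm ν θ ξ S where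
  par x y := by
    have m := fun ξ => (h.cont hS ξ).measurable
    simp only [h.mm_apply ν hS]
    rw [← lintegral_add_left (m _), ← lintegral_const_mul _ (m _), ← lintegral_const_mul _ (m _),
      ← lintegral_add_left ((m _).const_mul _)]
    exact lintegral_congr fun z => (qe_nu (θ z) hS).par x y
  hom c x := by
    simp only [h.mm_apply ν hS]
    rw [← lintegral_const_mul _ (h.cont hS x).measurable]
    exact lintegral_congr fun z => (qe_nu (θ z) hS).hom c x
  lsc u x hu := by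
    simp only [h.mm_apply ν hS]
    exact (lintegral_mono fun z => (qe_nu (θ z) hS).lsc u x hu).trans
      (lintegral_liminf_le fun n => (h.cont hS (u n)).measurable)

theorem mm_uni (ν : Measure Z) (hS : MeasurableSet S) {u : K →L[ℂ] K}
    (hu : u ∈ unitary (K →L[ℂ] K)) (e : ∀ x, Cm W x → x * u = u * x) (ξ : K) :
    mm ν θ (u ξ) S = mm ν θ ξ S := by
  simp only [h.mm_apply ν hS]
  refine lintegral_congr fun z => ?_
  rw [nu_eq _ hS, nu_eq _ hS, ← mapp, e _ (h.cm_P hS z), mapp, inner_map_map_of_mem_unitary hu]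

theorem mm_cov (ν : Measure Z) (hS : MeasurableSet S) (g : G') (ξ : K) :
    mm ν θ (C.t.π g⁻¹ ξ) S = mm ν θ ξ ((fun ζ => g⁻¹ • ζ) ⁻¹' S) := by
  rw [h.mm_apply ν hS, h.mm_apply ν (measurable_const_smul g⁻¹ hS)]
  exact lintegral_congr fun z => (h.cov z).ν C.t g hS ξ

theorem mm_mov [SMulInvariantMeasure G Z ν] (hS : MeasurableSet S) (A : Set Z) (g : G) (ξ : K) :
    mm (ν.restrict A) θ (C.s.π g⁻¹ ξ) S = mm (ν.restrict ((fun z => g⁻¹ • z) ⁻¹' A)) θ ξ S := by
  rw [h.mm_apply _ hS, h.mm_apply _ hS, ← (measurePreserving_smul g ν).setLIntegral_comp_preimage_emb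
    (measurableEmbedding_const_smul g) (fun z => (θ z).ν ξ S) ((fun z => g⁻¹ • z) ⁻¹' A),
    ← preimage_comp]
  simp [Function.comp_def, h.nu_mov hS]

theorem qf [SMulInvariantMeasure G Z ν] : QF C (mm ν θ) where
  aff S hS := ⟨h.qe ν hS, fun u hu e ξ => h.mm_uni ν hS hu e ξ, fun g ξ => by
    simpa using h.mm_mov (ν := ν) hS univ g⁻¹ ξ⟩
  cov g ξ S hS := h.mm_cov ν hS g ξ

end Fam

/-- `r` on `Z` and `r'` on `Y` correspond under `θ`, and `r` has modulus `κ` -/
structure Scl (ν : Measure Z) (θ : Z → POM Y K) (r : Z → Z) (r' : Y → Y) (κ : ℝ≥0∞) : Prop where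
  mr : Measurable r
  mr' : Measurable r'
  map : κ • ν.map r = ν
  sh : ∀ z S, MeasurableSet S → (θ (r z)).P S = (θ z).P (r' ⁻¹' S)

variable {r : Z → Z} {r' : Y → Y} {κ : ℝ≥0∞}

theorem Scl.nu (s : Scl ν θ r r' κ) (hS : MeasurableSet S) (z : Z) (ξ : K) :
    (θ (r z)).ν ξ S = (θ z).ν ξ (r' ⁻¹' S) := by
  rw [nu_eq _ hS, nu_eq _ (s.mr' hS), s.sh z S hS]

theorem Scl.mm_res (s : Scl ν θ r r' κ) (h : Fam C θ) (hS : MeasurableSet S) {A : Set Z}
    (hA : MeasurableSet A) (ξ : K) :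
    κ * mm (ν.restrict (r ⁻¹' A)) θ ξ (r' ⁻¹' S) = mm (ν.restrict A) θ ξ S := by
  rw [h.mm_apply _ hS, h.mm_apply _ (s.mr' hS)]
  conv_rhs => rw [← s.map, Measure.restrict_smul, lintegral_smul_measure,
    setLIntegral_map hA (h.cont hS ξ).measurable s.mr]
  simp only [s.nu hS, smul_eq_mul]

theorem Scl.mm (s : Scl ν θ r r' κ) (h : Fam C θ) (hS : MeasurableSet S) (ξ : K) :
    κ * mm ν θ ξ (r' ⁻¹' S) = mm ν θ ξ S := by
  simpa using s.mm_res h hS MeasurableSet.univ ξ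

/-- the moduli agree -/
theorem Scl.map' (s : Scl ν θ r r' κ) (h : Fam C θ) (ξ : K) :
    κ • (P092MA.mm ν θ ξ).map r' = P092MA.mm ν θ ξ := Measure.ext fun S hS => by
  rw [Measure.smul_apply, Measure.map_apply s.mr' hS, smul_eq_mul, s.mm h hS]

theorem Scl.sc (s : Scl ν θ r r' κ) (h : Fam C θ) (b : G') :
    Sc C (P092MA.mm ν θ) b (fun ζ => b⁻¹ • r' ζ) κ := fun ξ S hS => by
  rw [h.mm_cov ν hS, ← s.mm h (measurable_const_smul b⁻¹ hS), mul_comm]
  rfl

/-- the conclusion of D5 -/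
structure D5 (C : Cpl μ μ' W) (ν : Measure Z) (θ : Z → POM Y K) (ν' : Measure Y) : Prop where
  fam : Fam C θ
  isP : ∀ z, (θ z).IsP
  ne : ν ≠ 0
  inv : SMulInvariantMeasure G Z ν
  ne' : ν' ≠ 0
  inv' : SMulInvariantMeasure G' Y ν'
  fin' : IsLocallyFiniteMeasure ν'
  eq : ∀ ξ, mm ν θ ξ = ‖ξ‖ₑ ^ 2 • ν'

/-- **D5 for a family** -/
theorem d5 (h : Fam C θ) (hP : ∀ z, (θ z).IsP) (h0 : ν ≠ 0) [SMulInvariantMeasure G Z ν]
    (s : Scl ν θ r r' κ) {o : Y} {b : G'} (hT : Ctr μ' o (fun ζ => b⁻¹ • r' ζ) κ) (hb : ErgB C b)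
    {ξ : K} (hξ : ξ ≠ 0) {F : Set Y} (hF : F ∈ 𝓝 o) (fv : mm ν θ ξ F ≠ ∞) :
    D5 C ν θ (mm ν θ C.s.Ω) where
  fam := h
  isP := hP
  ne := h0
  inv := inferInstance
  ne' e := h0 <| by
    have := h.mm_apply ν MeasurableSet.univ C.s.Ω
    simp only [e, (hP _).ν_univ, C.s.enorm_Ω] at this
    simpa using this.symm
  inv' := h.qf.inv
  fin' := h.qf.locFin hT (s.sc h b) hb hξ hF fv
  eq := h.qf.d5 hT (s.sc h b) hb hξ hF fv

namespace D5

variable {ν' : Measure Y} (h : D5 C ν θ ν')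

include h

theorem lint (hS : MeasurableSet S) (ξ : K) : ∫⁻ z, (θ z).ν ξ S ∂ν = ‖ξ‖ₑ ^ 2 * ν' S := by
  rw [← h.fam.mm_apply ν hS, h.eq]; rfl

theorem eq' : ν' = mm ν θ C.s.Ω := by rw [h.eq, C.s.enorm_Ω, one_pow, one_smul]

/-- `c = 1` -/
theorem map (s : Scl ν θ r r' κ) : κ • ν'.map r' = ν' := by rw [h.eq']; exact s.map' h.fam _

theorem pos : ν.IsOpenPosMeasure := have := h.inv; openPos G h.ne

theorem pos' : ν'.IsOpenPosMeasure := have := h.inv'; openPos G' h.ne'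

/-- null sets -/
theorem null (hS : MeasurableSet S) (h0 : ν' S = 0) (z : Z) : (θ z).P S = 0 :=
  ((θ z).P_eq_zero_iff hS).2 fun ξ => by
    have := h.pos
    have e := h.lint hS ξ
    rw [h0, mul_zero, lintegral_eq_zero_iff (h.fam.cont hS ξ).measurable] at e
    exact congrFun ((Continuous.ae_eq_iff_eq ν (h.fam.cont hS ξ) continuous_const).1 e) z

/-- nondegeneracy -/
theorem exists_ne (hS : MeasurableSet S) (h0 : ν' S ≠ 0) {ξ : K} (hξ : ξ ≠ 0) {O : Set Z}
    (hO : ∀ᵐ z ∂ν, z ∈ O) : ∃ z ∈ O, (θ z).P S ξ ≠ 0 := by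
  by_contra! e
  have := h.lint hS ξ
  rw [lintegral_congr_ae (g := 0) (hO.mono fun z hz => by
    rw [← (h.isP z).enorm_P_sq hS, e z hz]; simp)] at this
  simp [h0, hξ] at this

end D5

end Vale.Agent.P092MA
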