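import Vale.Agent.P092MA.Dual

/-!
P092 (helper19): the magic identity between a family and its dual.
-/

set_option linter.all false

open scoped InnerProductSpace ENNReal NNReal ComplexConjugate Pointwise
open MeasureTheory Filter Topology ContinuousLinearMap Set

namespace Vale.Agent.P092MA

open Vale.Agent.P092CP Vale.Agent.P092RD
open Vale.Agent.P092.RC (Cm)
open Vale.Agent.P092.H466 (polar ext_quad)

section pom

variable {Y K : Type} [MeasurableSpace Y] [NormedAddCommGroup K] [InnerProductSpace ℂ K]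
  {θ : POM Y K} {A B : Set Y} {T : K →L[ℂ] K}

theorem P_mul_iff (hA : MeasurableSet A) : θ.P A * T = 0 ↔ ∀ ξ, θ.ν (T ξ) A = 0 :=
  ⟨fun h ξ => by rw [nu_eq θ hA, ← mapp, h]; simp,
    fun h => ContinuousLinearMap.ext fun ξ => P_ap_eq_zero θ hA (h ξ)⟩

theorem P_mul_mono (hA : MeasurableSet A) (hB : MeasurableSet B) (e : A ⊆ B)
    (h : θ.P B * T = 0) : θ.P A * T = 0 :=
  (P_mul_iff hA).2 fun ξ => measure_mono_null e ((P_mul_iff hB).1 h ξ)

theorem P_mul_loc [TopologicalSpace Y] [SecondCountableTopology Y] (hA : MeasurableSet A)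
    (h : ∀ x ∈ A, ∃ V ∈ 𝓝 x, MeasurableSet V ∧ θ.P V * T = 0) : θ.P A * T = 0 :=
  (P_mul_iff hA).2 fun ξ => measure_null_of_locally_null _ fun x hx =>
    (h x hx).imp fun _ hV => ⟨mem_nhdsWithin_of_mem_nhds hV.1, (P_mul_iff hV.2.1).1 hV.2.2 ξ⟩

theorem P_swap [CompleteSpace K] {Z : Type} [MeasurableSpace Z] {Θ : POM Z K} {S : Set Z}
    (hA : MeasurableSet A) (hS : MeasurableSet S) (h : θ.P A * Θ.P S = 0) : Θ.P S * θ.P A = 0 := by
  rw [← θ.star_P hA, ← Θ.star_P hS, ← star_mul, h, star_zero]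

theorem P_split (θ : POM Y K) (hA : MeasurableSet A) (hB : MeasurableSet B) :
    θ.P B = θ.P (B ∩ A) + θ.P (B ∩ Aᶜ) := by
  rw [← θ.P_union (hB.inter hA) (hB.inter hA.compl)
    (disjoint_compl_right.mono inter_subset_right inter_subset_right), inter_union_compl]

/-- a unital measure which separates the points is projection valued -/
theorem isP_of_sep [CompleteSpace K] [TopologicalSpace Y] [BorelSpace Y] [T2Space Y]
    [LocallyCompactSpace Y] [SecondCountableTopology Y] (one : θ.f 1 = 1)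
    (sep : ∀ w w' : Y, w ≠ w' → ∃ V ∈ 𝓝 w, ∃ V' ∈ 𝓝 w', MeasurableSet V ∧ MeasurableSet V' ∧
      θ.P V' * θ.P V = 0) : θ.IsP := by
  have h1 : ∀ A B : Set Y, MeasurableSet A → IsCompact B → Disjoint A B → θ.P A * θ.P B = 0 :=
    fun A B hA hB hd => P_mul_loc hA fun w hw => by
      obtain ⟨V, hV, mV, e⟩ := hB.induction_on (p := fun s => ∃ V ∈ 𝓝 w, MeasurableSet V ∧
        ∀ V', MeasurableSet V' → V' ⊆ V → ∀ ξ, θ.ν (θ.P V' ξ) s = 0)
        ⟨univ, univ_mem, .univ, fun _ _ _ _ => measure_empty⟩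
        (fun s t hst ⟨V, a, b, c⟩ => ⟨V, a, b, fun V' d e ξ => measure_mono_null hst (c V' d e ξ)⟩)
        (fun s t ⟨V, a, b, c⟩ ⟨V₁, a₁, b₁, c₁⟩ => ⟨V ∩ V₁, inter_mem a a₁, b.inter b₁,
          fun V' d e ξ => measure_union_null (c V' d (e.trans inter_subset_left) ξ)
            (c₁ V' d (e.trans inter_subset_right) ξ)⟩) fun w' hw' => by
        obtain ⟨V, a, V₁, a₁, b, b₁, c⟩ := sep w w' (hd.ne_of_mem hw hw')
        exact ⟨V₁, mem_nhdsWithin_of_mem_nhds a₁, V, a, b, fun V' d e =>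
          (P_mul_iff b₁).1 (P_swap d b₁ (P_mul_mono d b e (P_swap b₁ b c)))⟩
      exact ⟨V, hV, mV, P_swap hB.measurableSet mV ((P_mul_iff hB.measurableSet).2 (e V mV le_rfl))⟩
  refine θ.isP_of_gen {g | ∃ A, IsClosed A ∧ g = A.indicator 1} ?_ (fun P hP h => ?_) one ?_
  · rintro _ ⟨A, hA, rfl⟩; exact bd_ind1 hA.measurableSet
  · exact hP.of_pi (BorelSpace.measurable_eq.trans borel_eq_generateFrom_isClosed)
      isPiSystem_isClosed (h _ ⟨univ, isClosed_univ, (indicator_univ _).symm⟩) fun A hA =>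
      h _ ⟨A, hA, rfl⟩
  rintro _ ⟨B, hB, rfl⟩ _ ⟨A, hA, rfl⟩
  have mA := hA.measurableSet
  have mB := hB.measurableSet
  have h2 : θ.P Aᶜ * θ.P A = 0 := P_mul_loc mA.compl fun w hw => by
    obtain ⟨L, a, b, c⟩ := local_compact_nhds (hA.isOpen_compl.mem_nhds hw)
    exact ⟨L, a, c.measurableSet, P_swap mA c.measurableSet
      (h1 A L mA c (disjoint_compl_right.mono_right b))⟩
  have h3 : θ.P A + θ.P Aᶜ = 1 := by simpa [θ.P_univ, one] using (P_split θ mA .univ).symm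
  rw [← inter_indicator_one]
  change θ.P (B ∩ A) = θ.P B * θ.P A
  rw [P_split θ mA mB, add_mul, P_mul_mono (mB.inter mA.compl) mA.compl inter_subset_right h2,
    add_zero, eq_sub_of_add_eq h3, mul_sub, mul_one,
    P_mul_mono (mB.inter mA) mA inter_subset_right (P_swap mA.compl mA h2), sub_zero]

end pom

theorem meas_eq {X : Type} [MetricSpace X] [MeasurableSpace X] [BorelSpace X] {m m' : Measure X}
    [IsFiniteMeasure m] [IsFiniteMeasure m'] (h1 : m univ = m' univ)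
    (h : ∀ D, IsClosed D → m D ≤ m' D) : m = m' := by
  refine ext_of_generate_finite _ (BorelSpace.measurable_eq.trans borel_eq_generateFrom_isClosed)
    isPiSystem_isClosed (fun D hD => (h D hD).antisymm ?_) h1
  have h2 : m Dᶜ ≤ m' Dᶜ := by
    rw [hD.isOpen_compl.measure_eq_iSup_isClosed m]
    exact iSup₂_le fun F hF => iSup_le fun c => (h F c).trans (measure_mono hF)
  refine (ENNReal.add_le_add_iff_right (measure_ne_top m' Dᶜ)).1 ?_
  rw [measure_add_measure_compl hD.measurableSet, ← h1, ← measure_add_measure_compl hD.measurableSet]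
  exact add_le_add le_rfl h2

section opp

variable {Z X : Type} [TopologicalSpace Z] [TopologicalSpace X] {Op : Set (Z × Z)} {d : Z × Z → X}

theorem Opp.opn_pre (o : Opp Op d) {J : Set X} (hJ : IsOpen J) : IsOpen (Op ∩ d ⁻¹' J) :=
  o.cont.isOpen_inter_preimage o.opn hJ

variable [MeasurableSpace Z] [BorelSpace Z] [MeasurableSpace X] [BorelSpace X]

theorem Opp.exists_l (o : Opp Op d) {i : Z → Z × Z} (hi : Continuous i) (z : Z) :
    ∃ l : Z → X, Measurable l ∧ ∀ w, i w ∈ Op → l w = d (i w) := by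
  classical
  exact ⟨_, (o.cont.comp hi.continuousOn fun w hw => hw).measurable_piecewise
    (continuousOn_const (c := d (z, z))) (o.opn.preimage hi).measurableSet,
    fun w hw => piecewise_eq_of_mem _ _ _ hw⟩

end opp

variable {G G' K : Type} [Group G] [TopologicalSpace G] [IsTopologicalGroup G]
  [LocallyCompactSpace G] [SecondCountableTopology G] [T2Space G] [MeasurableSpace G] [BorelSpace G]
  [Group G'] [TopologicalSpace G'] [IsTopologicalGroup G'] [LocallyCompactSpace G']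
  [SecondCountableTopology G'] [T2Space G'] [MeasurableSpace G'] [BorelSpace G']
  [NormedAddCommGroup K] [InnerProductSpace ℂ K] [CompleteSpace K] {μ : Measure G}
  [μ.IsHaarMeasure] {μ' : Measure G'} [μ'.IsHaarMeasure] {W : Set (K →L[ℂ] K)}
  {Z : Type} [TopologicalSpace Z] [T2Space Z] [LocallyCompactSpace Z] [SecondCountableTopology Z]
  [MeasurableSpace Z] [BorelSpace Z] [MulAction G Z] [ContinuousSMul G Z]
  [MulAction.IsPretransitive G Z]
  {Y : Type} [TopologicalSpace Y] [T2Space Y] [LocallyCompactSpace Y] [SecondCountableTopology Y]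
  [MeasurableSpace Y] [BorelSpace Y] [MulAction G' Y] [ContinuousSMul G' Y]
  [MulAction.IsPretransitive G' Y]
  {C : Cpl μ μ' W} {θ : Z → POM Y K} {ν : Measure Z} {ν' : Measure Y} {S : Set Y} {A : Set Z}
  {Θ : Y → POM Z K} {X : Type} [MetricSpace X] [MeasurableSpace X] [BorelSpace X]
  {Op : Set (Z × Z)} {d : Z × Z → X} {Op' : Set (Y × Y)} {d' : Y × Y → X}

theorem cov_null {θ : POM Y K} (S : Side μ' W) (cov : Cov S.π θ) {U : Set Y} (hU : MeasurableSet U)
    (h : ∀ y : Y, ∀ᵐ g ∂μ', g • y ∈ U) : θ.P Uᶜ = 0 :=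
  null S cov hU.compl fun y => by
    have := S.inv
    exact (Measure.measure_preimage_inv μ' {g | g • y ∈ Uᶜ}).trans (h y)

theorem D5.P_ne (h : D5 C ν θ ν') (hS : IsOpen S) (h0 : S.Nonempty) (z : Z) : (θ z).P S ≠ 0 := by
  intro e
  have := h.pos'
  obtain ⟨w, -, hw⟩ := h.exists_ne hS.measurableSet (hS.measure_ne_zero ν' h0)
    (ξ := C.s.Ω) (fun e => by simpa [e] using C.s.nΩ) (O := univ) (.of_forall mem_univ)
  obtain ⟨g, rfl⟩ := MulAction.exists_smul_eq G z w
  rw [h.fam.P_mov hS.measurableSet, e] at hw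
  simp at hw

/-- the moduli of the dual family -/
theorem Dual.scl (H : Dual C ν θ ν' Θ) (h : D5 C ν θ ν') {r : Z → Z} {r' : Y ≃ₜ Y} {κ : ℝ≥0∞}
    (s : Scl ν θ r r' κ) (hκ : κ ≠ ∞) : Scl ν' Θ r' r κ where
  mr := s.mr'
  mr' := s.mr
  map := h.map s
  sh y A hA := by
    have := h.fin'
    have := h.pos'
    have k0 : κ ≠ 0 := fun e => h.ne (by rw [← s.map, e, zero_smul])
    refine ext_quad fun ξ => ?_
    rw [POM.inner_P _ hA, POM.inner_P _ (s.mr hA), Measure.real, Measure.real]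
    congr 2
    refine uniq_eq (ν := ν') ((H.fam.cont hA ξ).comp r'.continuous) (H.fam.cont (s.mr hA) ξ)
      (fun S hS => ?_) y
    have mS : MeasurableSet (r'.symm ⁻¹' S) := r'.symm.continuous.measurable hS
    have e : r' ⁻¹' (r'.symm ⁻¹' S) = S := by ext; simp
    have e1 := s.mm_res h.fam mS hA ξ
    rw [h.fam.mm_apply _ mS, h.fam.mm_apply _ (s.mr' mS), ← H.eq _ _ _ hA mS,
      ← H.eq _ _ _ (s.mr hA) (s.mr' mS), e] at e1
    conv_rhs at e1 => rw [← h.map s, Measure.restrict_smul, lintegral_smul_measure,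
      setLIntegral_map mS (H.fam.cont hA ξ).measurable s.mr', e]
    exact ((ENNReal.mul_right_inj k0 hκ).1 e1).symm

/-- the hypotheses of the magic identity -/
structure Mi (C : Cpl μ μ' W) (θ : Z → POM Y K) (Op : Set (Z × Z)) (d : Z × Z → X)
    (Op' : Set (Y × Y)) (d' : Y × Y → X) : Prop where
  opp : Opp Op d
  opp' : Opp Op' d'
  rel : Rel θ Op d Op' d'
  ae : ∀ z w, ∀ᵐ g ∂μ, (z, g • w) ∈ Op
  ae' : ∀ x y, ∀ᵐ g ∂μ', (g • x, y) ∈ Op'

namespace Dual

variable (H : Dual C ν θ ν' Θ) (h : D5 C ν θ ν') (M : Mi C θ Op d Op' d') {z : Z} {y : Y}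
  {l : Z → X} {l' : Y → X}

include H h M

theorem magic_nu (ml : Measurable l) (el : ∀ w, (z, w) ∈ Op → l w = d (z, w)) (ml' : Measurable l')
    (el' : ∀ x, (x, y) ∈ Op' → l' x = d' (x, y)) (ξ : K) :
    ((Θ y).ν ξ).map l = ((θ z).ν ξ).map l' := by
  have := h.fin'
  have := h.pos'
  have mU : MeasurableSet {w | (z, w) ∈ Op} :=
    (M.opp.opn.preimage (Continuous.prodMk_right z)).measurableSet
  have mU' : MeasurableSet {x | (x, y) ∈ Op'} :=
    (M.opp'.opn.preimage (Continuous.prodMk_left y)).measurableSet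
  have n1 := cov_null C.swap.t (H.fam.cov y) mU (M.ae z)
  have n2 := cov_null C.t (h.fam.cov z) mU' (M.ae' · y)
  refine meas_eq ?_ fun D hD => ?_
  · rw [Measure.map_apply ml .univ, Measure.map_apply ml' .univ, preimage_univ, preimage_univ,
      nu_eq _ .univ, nu_eq _ .univ, POM.P_univ, H.one, (h.isP z).P_univ]
  have mA := ml hD.measurableSet
  have mB := ml' hD.measurableSet
  have key : (θ z).P ((l' ⁻¹' D)ᶜ ∩ {x | (x, y) ∈ Op'}) * (Θ y).P (l ⁻¹' D ∩ {w | (z, w) ∈ Op})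
      = 0 := P_mul_loc (mB.compl.inter mU') fun x hx => by
    obtain ⟨P₀, hP₀, S₀, hS₀, e⟩ := mem_nhds_prod_iff.1 ((M.opp'.opn_pre hD.isOpen_compl).mem_nhds
      (x := (x, y)) ⟨hx.2, fun e => hx.1 (by rwa [mem_preimage, el' x hx.2])⟩)
    obtain ⟨P, a, b, cP⟩ := local_compact_nhds hP₀
    obtain ⟨S, a', b', cS⟩ := local_compact_nhds hS₀
    have e' := (prod_mono b b').trans e
    refine ⟨P, a, cP.measurableSet, P_swap (mA.inter mU) cP.measurableSet
      ((P_mul_iff (mA.inter mU)).2 fun η => ?_)⟩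
    have c := H.fam.cont (mA.inter mU) ((θ z).P P η)
    have e1 := H.eq ((θ z).P P η) _ S (mA.inter mU) cS.measurableSet
    rw [setLIntegral_congr_fun (g := fun _ => 0) (mA.inter mU) (fun w hw => (P_mul_iff
      cS.measurableSet).1 (P_swap cP.measurableSet cS.measurableSet (M.rel z w hw.2 P S cP cS
        (e'.trans inter_subset_left) fun ⟨q, hq, e2⟩ => (e' hq).2
          (by rw [e2, ← el w hw.2]; exact hw.1))) η), lintegral_zero,
      setLIntegral_eq_zero_iff cS.measurableSet c.measurable] at e1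
    by_contra e2
    exact (Measure.measure_pos_of_mem_nhds ν' (inter_mem a'
      (c.continuousAt.eventually_ne e2))).ne' (measure_mono_null
        (fun x hx (e : x ∈ S → _ = 0) => hx.2 (e hx.1)) (ae_iff.1 e1))
  have e1 : (Θ y).P (l ⁻¹' D) = (Θ y).P (l ⁻¹' D ∩ {w | (z, w) ∈ Op}) := by
    rw [P_split _ mU mA, ← mul_one ((Θ y).P (_ ∩ _ᶜ)), P_mul_mono (mA.inter mU.compl) mU.compl
      inter_subset_right (by rw [n1, zero_mul]), add_zero]
  have e2 : (θ z).P ((l' ⁻¹' D)ᶜ ∩ {x | (x, y) ∈ Op'}) = 1 - (θ z).P (l' ⁻¹' D) := by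
    rw [(h.isP z).P_inter mB.compl mU', (h.isP z).P_compl mB, ← compl_compl {x | (x, y) ∈ Op'},
      (h.isP z).P_compl mU'.compl, n2, sub_zero, mul_one]
  rw [e2, ← e1, sub_mul, one_mul, sub_eq_zero] at key
  have e3 := congrArg star key
  rw [star_mul, POM.star_P _ mA, POM.star_P _ mB] at e3
  rw [Measure.map_apply ml hD.measurableSet, Measure.map_apply ml' hD.measurableSet,
    ← (h.isP z).enorm_P_sq mB, nu_eq _ mA, key, mapp, ← POM.inner_P_left _ mB, e3, mapp,
    ← nu_eq _ mA]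
  exact (measure_mono (subset_univ _)).trans ((Θ y).fin _)

/-- **The magic identity** -/
theorem magic (ml : Measurable l) (el : ∀ w, (z, w) ∈ Op → l w = d (z, w)) (ml' : Measurable l')
    (el' : ∀ x, (x, y) ∈ Op' → l' x = d' (x, y)) {k : X → ℂ} (hk : Bd k) :
    (Θ y).f (k ∘ l) = (θ z).f (k ∘ l') :=
  f_ext (θ := (Θ y).map l ml) (θ' := (θ z).map l' ml')
    (fun ξ A _ => congrArg (fun m : Measure X => m A) (H.magic_nu h M ml el ml' el' ξ)) hk

/-- the magic identity for sets -/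
theorem magic_P (z : Z) (y : Y) {J : Set X} (hJ : MeasurableSet J) :
    (Θ y).P {w | (z, w) ∈ Op ∧ d (z, w) ∈ J} = (θ z).P {x | (x, y) ∈ Op' ∧ d' (x, y) ∈ J} := by
  obtain ⟨l, ml, el⟩ := M.opp.exists_l (Continuous.prodMk_right z) z
  obtain ⟨l', ml', el'⟩ := M.opp'.exists_l (Continuous.prodMk_left y) y
  have mU : MeasurableSet {w | (z, w) ∈ Op} :=
    (M.opp.opn.preimage (Continuous.prodMk_right z)).measurableSet
  have mU' : MeasurableSet {x | (x, y) ∈ Op'} :=
    (M.opp'.opn.preimage (Continuous.prodMk_left y)).measurableSet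
  have e : (Θ y).P (l ⁻¹' J) = (θ z).P (l' ⁻¹' J) := H.magic h M ml el ml' el' (bd_ind1 hJ)
  rw [P_split _ mU (ml hJ), P_split _ mU' (ml' hJ), ← mul_one ((Θ y).P (_ ∩ _ᶜ)),
    ← mul_one ((θ z).P (_ ∩ _ᶜ)), P_mul_mono ((ml hJ).inter mU.compl) mU.compl inter_subset_right
      (by rw [cov_null C.swap.t (H.fam.cov y) mU (M.ae z), zero_mul]),
    P_mul_mono ((ml' hJ).inter mU'.compl) mU'.compl inter_subset_right
      (by rw [cov_null C.t (h.fam.cov z) mU' (M.ae' · y), zero_mul]), add_zero, add_zero] at e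
  refine (congrArg _ (Set.ext fun w => ?_)).trans (e.trans (congrArg _ (Set.ext fun x => ?_)))
  · exact ⟨fun a => ⟨show l w ∈ J by rw [el w a.1]; exact a.2, a.1⟩,
      fun a => ⟨a.2, by rw [← el w a.2]; exact a.1⟩⟩
  · exact ⟨fun a => ⟨a.2, by rw [← el' x a.2]; exact a.1⟩,
      fun a => ⟨show l' x ∈ J by rw [el' x a.1]; exact a.2, a.1⟩⟩

/-- the invariants take the same values -/
theorem onto (z : Z) {x y : Y} (hx : (x, y) ∈ Op') :
    d' (x, y) ∈ closure ((fun w => d (z, w)) '' {w | (z, w) ∈ Op}) := by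
  by_contra e
  have o := (isClosed_closure (s := (fun w => d (z, w)) '' {w | (z, w) ∈ Op})).isOpen_compl
  refine h.P_ne ((M.opp'.opn_pre o).preimage (Continuous.prodMk_left y)) ⟨x, hx, e⟩ z
    ((H.magic_P h M z y o.measurableSet).symm.trans ?_)
  exact (congrArg _ (eq_empty_of_forall_notMem fun w hw =>
    hw.2 (subset_closure ⟨w, hw.1, rfl⟩))).trans (POM.P_empty _)

/-- the dual family is projection valued -/
theorem isP (sep : ∀ w w', (∀ z, (z, w) ∈ Op → (z, w') ∈ Op → d (z, w) = d (z, w')) → w = w')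
    (y : Y) : (Θ y).IsP := isP_of_sep (H.one y) fun w w' e => by
  obtain ⟨z, a, b, c⟩ : ∃ z, (z, w) ∈ Op ∧ (z, w') ∈ Op ∧ d (z, w) ≠ d (z, w') := by
    by_contra! c
    exact e (sep w w' c)
  obtain ⟨J, J', o, o', m, m', hd⟩ := t2_separation c
  have p := fun J (o : IsOpen J) => (M.opp.opn_pre o).preimage (Continuous.prodMk_right z)
  have p' := fun J (o : IsOpen J) =>
    ((M.opp'.opn_pre o).preimage (Continuous.prodMk_left y)).measurableSet
  refine ⟨_, (p J o).mem_nhds ⟨a, m⟩, _, (p J' o').mem_nhds ⟨b, m'⟩, (p J o).measurableSet,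
    (p J' o').measurableSet, ?_⟩
  have e1 := H.magic_P h M z y o.measurableSet
  have e2 := H.magic_P h M z y o'.measurableSet
  exact (congrArg₂ (· * ·) e2 e1).trans ((h.isP z).P_disj (p' J' o') (p' J o)
    (disjoint_left.2 fun x a b => disjoint_left.1 hd b.2 a.2))

/-- columns commute -/
theorem col (hP : (Θ y).IsP) (ml' : Measurable l') (el' : ∀ x, (x, y) ∈ Op' → l' x = d' (x, y))
    (z : Z) {k : X → ℂ} (hk : Bd k) {f : Z → ℂ} (hf : Bd f) :
    (θ z).f (k ∘ l') * (Θ y).f f = (Θ y).f f * (θ z).f (k ∘ l') := by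
  obtain ⟨l, ml, el⟩ := M.opp.exists_l (Continuous.prodMk_right z) z
  rw [← H.magic h M ml el ml' el' hk]
  exact hP.comm (hk.comp ml) hf

theorem col' (hP : (Θ y).IsP) (ml' : Measurable l') (el' : ∀ x, (x, y) ∈ Op' → l' x = d' (x, y))
    (z w : Z) {k k' : X → ℂ} (hk : Bd k) (hk' : Bd k') :
    (θ z).f (k ∘ l') * (θ w).f (k' ∘ l') = (θ w).f (k' ∘ l') * (θ z).f (k ∘ l') := by
  obtain ⟨l, ml, el⟩ := M.opp.exists_l (Continuous.prodMk_right w) w
  rw [← H.magic h M ml el ml' el' hk']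
  exact H.col h M hP ml' el' z hk (hk'.comp ml)

omit M

/-- the flip of D5 -/
theorem d5 (hP : ∀ y, (Θ y).IsP) [IsLocallyFiniteMeasure ν] : D5 C.swap ν' Θ ν where
  fam := H.fam
  isP := hP
  ne := h.ne'
  inv := h.inv'
  ne' := h.ne
  inv' := h.inv
  fin' := inferInstance
  eq ξ := Measure.ext fun A hA => by
    have := H.eq ξ A univ hA .univ
    simp only [(h.isP _).ν_univ, Measure.restrict_univ, setLIntegral_const] at this
    rw [H.fam.mm_apply _ hA, this]; rfl

theorem tr (hP : ∀ y, (Θ y).IsP) (hA : MeasurableSet A) (hS : MeasurableSet S) {x : K →L[ℂ] K}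
    (hx : Cm W x) : ∫⁻ y in S, C.t.Tr ((Θ y).P A * x) ∂ν' = ∫⁻ z in A, C.t.Tr ((θ z).P S * x) ∂ν := by
  have := C.t.cnt
  simp only [fun y => C.t.Tr_eq_tsum (cm_mul (H.fam.cm_P hA y) hx),
    fun z => C.t.Tr_eq_tsum (cm_mul (h.fam.cm_P hS z) hx), mapp, (hP _).enorm_P_sq hA,
    (h.isP _).enorm_P_sq hS]
  rw [lintegral_const_mul' _ _ C.t.vol, lintegral_const_mul' _ _ C.t.vol,
    lintegral_tsum fun γ => (H.fam.cont hA _).measurable.aemeasurable,
    lintegral_tsum fun γ => (h.fam.cont hS _).measurable.aemeasurable]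
  simp only [H.eq _ _ _ hA hS]

/-- **Hilbert-Schmidt products** -/
theorem hs (hP : ∀ y, (Θ y).IsP) (hA : MeasurableSet A) (fA : ν A ≠ ∞) (hS : MeasurableSet S)
    (hy : S ∈ 𝓝 y) {x : K →L[ℂ] K} (hx : Cm W x) {c : ℝ≥0∞} (hc : c ≠ ∞)
    (bd : ∀ z ∈ A, C.t.Tr ((θ z).P S * x) ≤ c) {U : Set G'} (hU : U ∈ 𝓝 (1 : G')) :
    ∃ g ∈ U, C.t.Tr ((Θ y).P A * (C.t.π g⁻¹ * x * C.t.π g)) ≠ ∞ := by
  have := h.pos'
  by_contra! e
  have e1 := (H.tr h hP hA hS hx).trans_le (setLIntegral_mono' hA bd)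
  obtain ⟨V, a, o, b⟩ := mem_nhds_iff.1 (inter_mem hy (orb_nhds y hU))
  have e2 : ∫⁻ _ in V, ∞ ∂ν' ≤ _ := (setLIntegral_mono' o.measurableSet fun w hw => ?_).trans
    ((lintegral_mono_set (a.trans inter_subset_left)).trans e1)
  · rw [setLIntegral_const, setLIntegral_const, ENNReal.top_mul (o.measure_ne_zero ν' ⟨y, b⟩)] at e2
    exact ENNReal.mul_ne_top hc fA (top_le_iff.1 e2)
  obtain ⟨g, hg, rfl⟩ := (a hw).2
  rw [← e g hg, ← C.t.Tr_conj _ g, H.fam.P_mov hA]
  simp only [Cpl.swap_s, mul_assoc, pi_mul_inv, mul_one, le_refl]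

end Dual

end Vale.Agent.P092MA
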