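import Vale.Agent.P092CP.L2
import Vale.Agent.P092RD.Pom3
import Vale.Agent.P092.H325.UltraP

/-!
P092 (helper19): quadratic forms, their operators and their Moreau-Yosida approximations.
-/

set_option linter.all false

open scoped InnerProductSpace ENNReal NNReal ComplexConjugate
open MeasureTheory Filter Topology ContinuousLinearMap Set

namespace Vale.Agent.P092MA

open Vale.Agent.P092CP
open Vale.Agent.P092.RC (Cm)
open Vale.Agent.P092.H466 (polar ext_quad)

variable {K : Type} [NormedAddCommGroup K] [InnerProductSpace ℂ K]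

theorem cont_add (f : K →+ ℝ) {a b : ℝ} (ha : 0 ≤ a) (h : ∀ x, |f x| ≤ a * ‖x‖ ^ 2 + b) :
    Continuous f := by
  refine continuous_of_continuousAt_zero f (Metric.continuousAt_iff.2 fun ε hε => ?_)
  obtain ⟨n, hn⟩ := exists_nat_gt ((a + b) / ε)
  have hb : 0 ≤ b := by simpa using h 0
  have hn0 : (0 : ℝ) < n := lt_of_le_of_lt (by positivity) hn
  refine ⟨1 / n, by positivity, fun x hx => ?_⟩
  rw [dist_zero_right] at hx
  rw [map_zero, dist_zero_right, Real.norm_eq_abs]
  have h1 := h (n • x)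
  rw [map_nsmul, nsmul_eq_mul, abs_mul, abs_of_pos hn0] at h1
  have h2 : ‖n • x‖ ≤ 1 := by
    rw [lt_div_iff₀ hn0] at hx
    exact (norm_nsmul_le).trans (by linarith)
  have h3 : a * ‖n • x‖ ^ 2 ≤ a := by
    have : ‖n • x‖ ^ 2 ≤ 1 := pow_le_one₀ (norm_nonneg _) h2
    nlinarith
  rw [div_lt_iff₀ hε] at hn
  nlinarith

/-- real valued quadratic forms -/
structure QR (Q : K → ℝ) : Prop where
  par : ∀ x y, Q (x + y) + Q (x - y) = 2 * Q x + 2 * Q y
  hom : ∀ (c : ℂ) x, Q (c • x) = ‖c‖ ^ 2 * Q x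
  pos : ∀ x, 0 ≤ Q x

/-- **Jordan - von Neumann** -/
theorem QR.exists_op [CompleteSpace K] {Q : K → ℝ} (h : QR Q) {C : ℝ} (hC : 0 ≤ C)
    (bd : ∀ x, Q x ≤ C * ‖x‖ ^ 2) :
    ∃ T : K →L[ℂ] K, ‖T‖ ≤ 2 * C ∧ ∀ x, ⟪x, T x⟫_ℂ = (Q x : ℂ) := by
  let B : K → K → ℝ := fun x y => (Q (x + y) - Q (x - y)) / 4
  have hneg : ∀ x, Q (-x) = Q x := fun x => by simpa using h.hom (-1) x
  have h0 : Q 0 = 0 := by simpa using h.hom 0 0
  have sym : ∀ x y, B x y = B y x := fun x y => by
    simp only [B]; rw [add_comm, ← hneg (x - y), neg_sub]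
  have add : ∀ x x' y, B (x + x') y = B x y + B x' y := fun x x' y => by
    have e1 := h.par (x + y) x'
    have e2 := h.par (x - y) x'
    have e3 := h.par (x' + y) x
    have e4 := h.par (x' - y) x
    have a1 : x' + y + x = x + x' + y := by abel
    have a2 : x + y + x' = x + x' + y := by abel
    have a3 : x - y + x' = x + x' - y := by abel
    have a4 : x' - y + x = x + x' - y := by abel
    have a5 : x' + y - x = -(x - y - x') := by abel
    have a6 : x' - y - x = -(x + y - x') := by abel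
    rw [a2] at e1; rw [a3] at e2; rw [a1, a5, hneg] at e3; rw [a4, a6, hneg] at e4
    simp only [B]; linarith
  have bB : ∀ x y, |B x y| ≤ C / 2 * ‖x‖ ^ 2 + C / 2 * ‖y‖ ^ 2 := fun x y => by
    have := h.par x y; have := h.pos (x + y); have := h.pos (x - y); have := bd x; have := bd y
    rw [abs_le]; simp only [B]; constructor <;> linarith
  let f : K → K →+ ℝ := fun y => AddMonoidHom.mk' (fun x => B x y) fun x x' => add x x' y
  have smulR : ∀ (t : ℝ) x y, B ((t : ℂ) • x) y = t * B x y := fun t x y => by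
    have := map_real_smul (f y) (cont_add (f y) (by positivity) fun x => bB x y) t x
    rw [Complex.coe_smul]; exact this
  have rot : ∀ x y, B (Complex.I • x) (Complex.I • y) = B x y := fun x y => by
    simp only [B]; rw [← smul_add, ← smul_sub, h.hom, h.hom]; simp
  have neg : ∀ x y, B (-x) y = -B x y := fun x y => by simpa using smulR (-1) x y
  have rot' : ∀ x y, B (Complex.I • x) y = -B x (Complex.I • y) := fun x y => by
    rw [← rot, smul_smul, Complex.I_mul_I, neg_one_smul, neg]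
  have smulC : ∀ (c : ℂ) x y, B (c • x) y = c.re * B x y - c.im * B x (Complex.I • y) :=
    fun c x y => by
      have e : c • x = (c.re : ℂ) • x + (c.im : ℂ) • Complex.I • x := by
        rw [smul_smul, ← add_smul, Complex.re_add_im]
      rw [e, add, smulR, smulR, rot']; ring
  let S : K → K → ℂ := fun x y => (B x y : ℂ) - Complex.I * B x (Complex.I • y)
  have II : ∀ x y, B x (Complex.I • Complex.I • y) = -B x y := fun x y => by
    rw [smul_smul, Complex.I_mul_I, neg_one_smul, sym, neg, sym]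
  have S1 : ∀ (c : ℂ) x y, S (c • x) y = conj c * S x y := fun c x y => by
    simp only [S]; rw [smulC, smulC, II]
    apply Complex.ext <;> simp <;> ring
  have S2 : ∀ (c : ℂ) x y, S x (c • y) = c * S x y := fun c x y => by
    simp only [S]
    rw [smul_comm, sym x (c • y), sym x (c • _), smulC, smulC, rot, sym y x, sym y, rot', sym _ x]
    apply Complex.ext <;> simp <;> ring
  let F : K →ₗ⋆[ℂ] K →ₗ[ℂ] ℂ := LinearMap.mk₂'ₛₗ (starRingEnd ℂ) (RingHom.id ℂ) S
    (fun x x' y => by simp only [S]; rw [add, add]; push_cast; ring) S1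
    (fun x y y' => by
      simp only [S]; rw [smul_add, sym x (y + y'), sym x (_ + _), add, add, sym y, sym y',
        sym (_ • y), sym (_ • y')]; push_cast; ring) S2
  have b1 : ∀ x y, ‖x‖ = 1 → ‖y‖ = 1 → ‖S x y‖ ≤ 2 * C := fun x y hx hy => by
    have e1 := bB x y
    have e2 := bB x (Complex.I • y)
    rw [norm_smul, Complex.norm_I, hx, hy] at e2
    rw [hx, hy] at e1
    refine (norm_sub_le _ _).trans ?_
    rw [norm_mul, Complex.norm_I, Complex.norm_real, Complex.norm_real, Real.norm_eq_abs,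
      Real.norm_eq_abs]
    linarith
  have hF : ∀ x y, ‖F x y‖ ≤ 2 * C * ‖x‖ * ‖y‖ := fun x y => by
    rcases eq_or_ne x 0 with rfl | hx
    · simp
    rcases eq_or_ne y 0 with rfl | hy
    · simp
    have hx' := norm_pos_iff.2 hx
    have hy' := norm_pos_iff.2 hy
    have e := b1 (((‖x‖⁻¹ : ℝ) : ℂ) • x) (((‖y‖⁻¹ : ℝ) : ℂ) • y)
      (by rw [norm_smul, Complex.norm_real, norm_inv, norm_norm, inv_mul_cancel₀ hx'.ne'])
      (by rw [norm_smul, Complex.norm_real, norm_inv, norm_norm, inv_mul_cancel₀ hy'.ne'])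
    rw [S1, S2, norm_mul, norm_mul, RCLike.norm_conj, Complex.norm_real, Complex.norm_real,
      norm_inv, norm_inv, norm_norm, norm_norm, inv_mul_le_iff₀ hx', inv_mul_le_iff₀ hy'] at e
    exact e.trans (le_of_eq (by ring))
  let Fc : K →L⋆[ℂ] K →L[ℂ] ℂ := F.mkContinuous₂ (2 * C) hF
  have hT : ∀ x y, ⟪InnerProductSpace.continuousLinearMapOfBilin Fc x, y⟫_ℂ = S x y :=
    fun x y => InnerProductSpace.continuousLinearMapOfBilin_apply Fc x y
  refine ⟨InnerProductSpace.continuousLinearMapOfBilin Fc, ?_, fun x => ?_⟩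
  · refine opNorm_le_bound _ (by positivity) fun x => ?_
    set w := InnerProductSpace.continuousLinearMapOfBilin Fc x
    have e : ‖⟪w, w⟫_ℂ‖ ≤ 2 * C * ‖x‖ * ‖w‖ := by rw [hT]; exact hF x w
    rw [inner_self_eq_norm_sq_to_K, norm_pow, RCLike.norm_ofReal, abs_norm, sq] at e
    rcases (norm_nonneg w).eq_or_lt with h1 | h1
    · rw [← h1]; positivity
    · exact le_of_mul_le_mul_right e h1
  · rw [← inner_conj_symm, hT]
    have e1 : B x (Complex.I • x) = 0 := by
      have := rot' x x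
      rw [sym] at this; linarith
    have e2 : B x x = Q x := by
      have := h.par x x
      simp only [B]; rw [sub_self, h0] at *; linarith
    simp [S, e1, e2]

/-- quadratic forms with values in `[0, ∞]` -/
structure QE (q : K → ℝ≥0∞) : Prop where
  par : ∀ x y, q (x + y) + q (x - y) = 2 * q x + 2 * q y
  hom : ∀ (c : ℂ) x, q (c • x) = ‖c‖ₑ ^ 2 * q x
  lsc : ∀ (u : ℕ → K) x, Tendsto u atTop (𝓝 x) → q x ≤ liminf (fun n => q (u n)) atTop

theorem enorm_par (x y : K) : ‖x + y‖ₑ ^ 2 + ‖x - y‖ₑ ^ 2 = 2 * ‖x‖ₑ ^ 2 + 2 * ‖y‖ₑ ^ 2 := by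
  have h := parallelogram_law_with_nnnorm ℂ x y
  simp only [enorm_eq_nnnorm]
  exact_mod_cast (by rw [h]; ring : _ = 2 * ‖x‖₊ ^ 2 + 2 * ‖y‖₊ ^ 2)

/-- the Moreau-Yosida approximation -/
noncomputable def my (q : K → ℝ≥0∞) (n : ℕ) (η : K) : ℝ≥0∞ := ⨅ ξ, n * ‖η - ξ‖ₑ ^ 2 + q ξ

namespace QE

variable {q : K → ℝ≥0∞} (h : QE q)

include h

theorem zero : q 0 = 0 := by simpa using h.hom 0 0

omit h in
theorem my_le (n : ℕ) (η : K) : my q n η ≤ q η := (iInf_le _ η).trans (by simp)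

theorem my_le' (n : ℕ) (η : K) : my q n η ≤ n * ‖η‖ₑ ^ 2 := (iInf_le _ 0).trans (by simp [h.zero])

theorem my_ne (n : ℕ) (η : K) : my q n η ≠ ∞ :=
  ne_top_of_le_ne_top (ENNReal.mul_ne_top (by simp) (ENNReal.pow_ne_top enorm_ne_top)) (h.my_le' n η)

theorem my_hom (n : ℕ) (c : ℂ) (η : K) : my q n (c • η) = ‖c‖ₑ ^ 2 * my q n η := by
  rcases eq_or_ne c 0 with rfl | hc
  · exact le_antisymm ((h.my_le' n _).trans (by simp)) (by simp)
  have h1 : ‖c‖ₑ ^ 2 ≠ 0 := by simpa using hc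
  rw [my, my, ENNReal.mul_iInf_of_ne h1 (ENNReal.pow_ne_top enorm_ne_top),
    ← (Equiv.smulRight hc).iInf_comp]
  refine iInf_congr fun ξ => ?_
  rw [Equiv.smulRight_apply, ← smul_sub, enorm_smul, h.hom]; ring

theorem my_par_le (n : ℕ) (x y : K) :
    my q n (x + y) + my q n (x - y) ≤ 2 * my q n x + 2 * my q n y := by
  conv_rhs => rw [my, my, ENNReal.mul_iInf_of_ne two_ne_zero ENNReal.ofNat_ne_top,
    ENNReal.mul_iInf_of_ne two_ne_zero ENNReal.ofNat_ne_top, ENNReal.iInf_add]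
  refine le_iInf fun a => ?_
  rw [ENNReal.add_iInf]
  refine le_iInf fun b => ?_
  refine (add_le_add (iInf_le _ (a + b)) (iInf_le _ (a - b))).trans (le_of_eq ?_)
  have e1 : x + y - (a + b) = (x - a) + (y - b) := by abel
  have e2 : x - y - (a - b) = (x - a) - (y - b) := by abel
  rw [e1, e2, add_add_add_comm, ← mul_add, enorm_par, h.par]; ring

theorem my_par (n : ℕ) (x y : K) :
    my q n (x + y) + my q n (x - y) = 2 * my q n x + 2 * my q n y := by
  refine le_antisymm (h.my_par_le n x y) ?_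
  have e := h.my_par_le n (x + y) (x - y)
  have e1 : x + y + (x - y) = (2 : ℂ) • x := by rw [two_smul]; abel
  have e2 : x + y - (x - y) = (2 : ℂ) • y := by rw [two_smul]; abel
  have e3 : ‖(2 : ℂ)‖ₑ = 2 := by rw [← ofReal_norm]; simp
  rw [e1, e2, h.my_hom, h.my_hom, e3] at e
  refine (ENNReal.mul_le_mul_iff_right two_ne_zero ENNReal.ofNat_ne_top).1 ?_
  calc _ = 2 ^ 2 * my q n x + 2 ^ 2 * my q n y := by ring
    _ ≤ _ := e
    _ = _ := by ring

theorem qr (n : ℕ) : QR fun η => (my q n η).toReal where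
  par x y := by
    rw [← ENNReal.toReal_add (h.my_ne _ _) (h.my_ne _ _), h.my_par,
      ENNReal.toReal_add (ENNReal.mul_ne_top (by simp) (h.my_ne _ _))
        (ENNReal.mul_ne_top (by simp) (h.my_ne _ _))]
    simp
  hom c x := by rw [h.my_hom]; simp
  pos _ := ENNReal.toReal_nonneg

theorem exists_op [CompleteSpace K] (n : ℕ) :
    ∃ T : K →L[ℂ] K, ∀ x, ⟪x, T x⟫_ℂ = ((my q n x).toReal : ℂ) := by
  obtain ⟨T, -, hT⟩ := (h.qr n).exists_op (C := n) (by positivity) fun x => by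
    simpa using ENNReal.toReal_mono
      (ENNReal.mul_ne_top (by simp) (ENNReal.pow_ne_top enorm_ne_top)) (h.my_le' n x)
  exact ⟨T, hT⟩

/-- the approximations increase to the form -/
theorem le_of_my {η : K} {c : ℝ≥0∞} (hc : ∀ n, my q n η ≤ c) : q η ≤ c := by
  rcases eq_or_ne c ∞ with rfl | hc'
  · exact le_top
  refine ENNReal.le_of_forall_pos_le_add fun ε hε _ => ?_
  have h1 : ∀ n : ℕ, ∃ ξ, (n + 1 : ℕ) * ‖η - ξ‖ₑ ^ 2 + q ξ < c + ε := fun n =>
    iInf_lt_iff.1 ((hc (n + 1)).trans_lt (ENNReal.lt_add_right hc' (by simpa using hε.ne')))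
  choose u hu using h1
  have h2 : Tendsto u atTop (𝓝 η) := by
    refine tendsto_of_enorm_sq ?_
    have h3 : Tendsto (fun n : ℕ => (c + ε) * ((n + 1 : ℕ) : ℝ≥0∞)⁻¹) atTop (𝓝 0) := by
      have := ENNReal.Tendsto.const_mul (a := c + ε)
        (ENNReal.tendsto_inv_nat_nhds_zero.comp (tendsto_add_atTop_nat 1))
        (Or.inr (by simpa using hc'))
      simpa using this
    refine tendsto_of_tendsto_of_tendsto_of_le_of_le tendsto_const_nhds h3 (fun _ => zero_le)
      fun n => ?_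
    rw [enorm_sub_rev, ← div_eq_mul_inv, ENNReal.le_div_iff_mul_le (Or.inl (by simp))
      (Or.inl (by simp)), mul_comm]
    exact le_self_add.trans (hu n).le
  exact (h.lsc u η h2).trans (liminf_le_of_frequently_le'
    (Frequently.of_forall fun n => le_add_self.trans (hu n).le))

omit h in
theorem my_inv {u v : K → K} (huv : ∀ x, u (v x) = x) (hn : ∀ x y, ‖u x - u y‖ₑ = ‖x - y‖ₑ)
    (hq : ∀ x, q (u x) = q x) (n : ℕ) (η : K) : my q n (u η) = my q n η := by
  refine le_antisymm (le_iInf fun ξ => (iInf_le _ (u ξ)).trans (by rw [hn, hq]))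
    (le_iInf fun ξ => (iInf_le _ (v ξ)).trans ?_)
  rw [← hn, ← hq, huv]

/-- the infimum is attained -/
theorem my_min [CompleteSpace K] {n : ℕ} (hn : n ≠ 0) {T : K →L[ℂ] K}
    (hT : ∀ x, ⟪x, T x⟫_ℂ = ((my q n x).toReal : ℂ)) (η : K) :
    n * ‖((n : ℂ)⁻¹) • T η‖ₑ ^ 2 + q (η - ((n : ℂ)⁻¹) • T η) ≤ my q n η := by
  have n0 : (0 : ℝ) < n := by positivity
  have sa : ∀ x y, ⟪T x, y⟫_ℂ = ⟪x, T y⟫_ℂ := by
    have : adjoint T = T := ext_quad fun x => by
      rw [adjoint_inner_right, ← inner_conj_symm, hT, Complex.conj_ofReal]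
    intro x y
    rw [← adjoint_inner_right, this]
  set w := ((n : ℂ)⁻¹) • T η
  have hw : T η = (n : ℂ) • w := by rw [smul_smul, mul_inv_cancel₀ (by exact_mod_cast hn), one_smul]
  have h1 : ∀ k : ℕ, ∃ ξ, n * ‖η - ξ‖ₑ ^ 2 + q ξ < my q n η + ((k + 1 : ℕ) : ℝ≥0∞)⁻¹ := fun k =>
    iInf_lt_iff.1 (ENNReal.lt_add_right (h.my_ne n η) (by simp))
  choose u hu using h1
  have key : ∀ k, ‖u k - (η - w)‖ ^ 2 ≤ ((k + 1 : ℕ) : ℝ)⁻¹ := fun k => by
    set v := w - (η - u k)
    have hq : q (u k) ≠ ∞ := ne_top_of_le_ne_top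
      (ENNReal.add_ne_top.2 ⟨h.my_ne n η, by simp⟩) (le_add_self.trans (hu k).le)
    have a1 : (my q n (η + v)).toReal ≤ n * ‖η + v - u k‖ ^ 2 + (q (u k)).toReal := by
      have := ENNReal.toReal_mono (ENNReal.add_ne_top.2
        ⟨ENNReal.mul_ne_top (by simp) (ENNReal.pow_ne_top enorm_ne_top), hq⟩)
        (iInf_le (fun ξ => n * ‖η + v - ξ‖ₑ ^ 2 + q ξ) (u k))
      rw [ENNReal.toReal_add (ENNReal.mul_ne_top (by simp) (ENNReal.pow_ne_top enorm_ne_top)) hq]
        at this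
      simpa [my] using this
    have a2 : n * ‖η - u k‖ ^ 2 + (q (u k)).toReal ≤ (my q n η).toReal + ((k + 1 : ℕ) : ℝ)⁻¹ := by
      have := ENNReal.toReal_mono (ENNReal.add_ne_top.2 ⟨h.my_ne n η, by simp⟩) (hu k).le
      rw [ENNReal.toReal_add (ENNReal.mul_ne_top (by simp) (ENNReal.pow_ne_top enorm_ne_top)) hq,
        ENNReal.toReal_add (h.my_ne n η) (by simp), ENNReal.toReal_inv, ENNReal.toReal_natCast]
        at this
      simpa using this
    have a3 : (my q n (η + v)).toReal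
        = (my q n η).toReal + 2 * (n * (⟪w, v⟫_ℂ).re) + (my q n v).toReal := by
      have e := congrArg Complex.re (hT (η + v))
      rw [map_add, inner_add_left, inner_add_right, inner_add_right, hT, hT, ← sa, hw,
        inner_smul_left, inner_smul_right, ← inner_conj_symm v w] at e
      have e0 : (⟪v, w⟫_ℂ).re = (⟪w, v⟫_ℂ).re := inner_re_symm (𝕜 := ℂ) v w
      simp at e
      rw [e0] at e
      linarith
    have a4 : η + v - u k = w := by simp only [v]; abel
    have a5 : η - u k = w - v := by simp only [v]; abel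
    have a6 : u k - (η - w) = v := by simp only [v]; abel
    have a7 := ENNReal.toReal_nonneg (a := my q n v)
    rw [a4] at a1
    rw [a5, @norm_sub_sq ℂ] at a2
    rw [a6]
    have n1 : (1 : ℝ) ≤ n := by exact_mod_cast Nat.one_le_iff_ne_zero.2 hn
    have : (RCLike.re ⟪w, v⟫_ℂ : ℝ) = (⟪w, v⟫_ℂ).re := rfl
    rw [this] at a2
    nlinarith [sq_nonneg ‖v‖]
  have h2 : Tendsto u atTop (𝓝 (η - w)) := by
    rw [tendsto_iff_norm_sub_tendsto_zero]
    have h3 := (tendsto_inv_atTop_nhds_zero_nat (𝕜 := ℝ)).comp (tendsto_add_atTop_nat 1)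
    have h4 := (squeeze_zero (fun _ => sq_nonneg _) key h3).sqrt
    simpa using h4
  have h5 : Tendsto (fun k => (n : ℝ≥0∞) * ‖η - u k‖ₑ ^ 2) atTop (𝓝 (n * ‖w‖ₑ ^ 2)) := by
    have := ((tendsto_const_nhds (x := η)).sub h2).enorm
    rw [sub_sub_cancel] at this
    exact ENNReal.Tendsto.const_mul (ENNReal.Tendsto.pow this) (Or.inr (by simp))
  have h6 : Tendsto (fun k : ℕ => my q n η + ((k + 1 : ℕ) : ℝ≥0∞)⁻¹) atTop (𝓝 (my q n η)) := by
    simpa using (tendsto_const_nhds (x := my q n η)).add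
      (ENNReal.tendsto_inv_nat_nhds_zero.comp (tendsto_add_atTop_nat 1))
  have h7 := ENNReal.Tendsto.sub h6 h5 (Or.inl (h.my_ne n η))
  refine add_le_of_le_tsub_left_of_le (le_of_tendsto_of_tendsto' h5 h6 fun k =>
    le_self_add.trans (hu k).le) ((h.lsc u _ h2).trans ?_)
  rw [← h7.liminf_eq]
  exact liminf_le_liminf (Eventually.of_forall fun k => ENNReal.le_sub_of_add_le_left
    (ENNReal.mul_ne_top (by simp) (ENNReal.pow_ne_top enorm_ne_top)) (hu k).le)

end QE

/-- an operator which commutes with the unitaries of the commutant of `B` lies in `B` -/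
theorem cm_of_unitary [CompleteSpace K] {W : Set (K →L[ℂ] K)} (hW : ∀ w ∈ W, adjoint w ∈ W)
    {T : K →L[ℂ] K} (h : ∀ u ∈ unitary (K →L[ℂ] K), (∀ x, Cm W x → x * u = u * x) → T * u = u * T) :
    Cm W T := fun w hw => by
  let A := StarSubalgebra.centralizer ℂ {x : K →L[ℂ] K | Cm W x}
  have hA : IsClosed (A : Set (K →L[ℂ] K)) := by
    rw [StarSubalgebra.coe_centralizer]; exact Set.isClosed_centralizer _
  have mem : ∀ u, u ∈ A ↔ ∀ x, Cm W x → x * u = u * x := fun u => by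
    rw [StarSubalgebra.mem_centralizer_iff]
    exact ⟨fun e x hx => (e x hx).1, fun e x hx => ⟨e x hx, e _ (cm_adj hW hx)⟩⟩
  obtain ⟨u, c, e, -⟩ := CStarAlgebra.exists_sum_four_unitary
    (⟨w, (mem w).2 fun x hx => hx w hw⟩ : A)
  have e' : w = ∑ i, c i • ((u i : A) : K →L[ℂ] K) := by simpa using congrArg Subtype.val e
  rw [e', Finset.mul_sum, Finset.sum_mul]
  refine Finset.sum_congr rfl fun i _ => ?_
  rw [mul_smul_comm, smul_mul_assoc, h _ ⟨congrArg Subtype.val (u i).2.1,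
    congrArg Subtype.val (u i).2.2⟩ ((mem _).1 (u i : A).2)]

end Vale.Agent.P092MA
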